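import Vale.Agent.P281.H603.Dep

/-!
# P281, theorem T-D, block D (helper603): analyticity
-/

open Set Filter Metric
open scoped Topology

namespace Vale.Agent.P281.H603

open Vale.Agent.P281.H64

/-- Continuous and differentiable in all the directions implies differentiable. -/
theorem differentiableOn_of_dir {p : ℕ} {T' : Set (Cm p)} (hT : IsOpen T') {f : Cm p → ℂ}
    (hc : ∀ t ∈ T', ContinuousAt f t)
    (hd : ∀ t ∈ T', ∀ d : Cm p, DifferentiableAt ℂ (fun s : ℂ => f (t + s • d)) 0) :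
    DifferentiableOn ℂ f T' := by
  refine P272.GEO.osgood hT (fun t ht => (hc t ht).continuousWithinAt) fun x hx i => ?_
  have h1 := hd x hx (Pi.single i 1)
  have h2 : DifferentiableAt ℂ (fun τ : ℂ => τ - x i) (x i) := by fun_prop
  have h3 : DifferentiableAt ℂ (fun s : ℂ => f (x + s • Pi.single i 1))
      ((fun τ : ℂ => τ - x i) (x i)) := by
    simpa using h1
  have h4 := DifferentiableAt.comp (g := fun s : ℂ => f (x + s • Pi.single i 1))
    (f := fun τ : ℂ => τ - x i) (x i) h3 h2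
  have h5 : (fun τ : ℂ => f (Function.update x i τ)) =
      (fun s : ℂ => f (x + s • Pi.single i 1)) ∘ fun τ : ℂ => τ - x i := by
    funext τ
    simp only [Function.comp_apply]
    congr 1
    funext j
    by_cases hj : j = i
    · subst hj; simp
    · simp [hj]
  rw [h5]
  exact h4

variable {p : ℕ} {E Γ : Type} [TopologicalSpace E] [T2Space E] [SimplyConnectedSpace E] [Group Γ]
  [MulAction Γ E] [ContinuousConstSMul Γ E]
  {𝓕 : Fam p E Γ} {T' : Set (Cm p)} {q : Fin 𝓕.N → ℂ → ℂ}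
  {u : Cm p → Fin 𝓕.N → ℂ → ℂ} {c : Cm p → Γ → ℂ}

theorem Dat.continuousAt (hC2 : C2Stmt) (D : Dat 𝓕 T' q u c) {n : ℕ} (M : Mark Γ n)
    {I : Set (Fin n)} (hG : ∀ t (ht : t ∈ T'), Good (𝓕.at t (D.sub ht)) M I) (i₀ : Fin 𝓕.N)
    {a₀ : ℂ} (h0 : ∀ t ∈ T', u t i₀ 0 = a₀) {a : Fin n → ℂ}
    (hI : ∀ m ∈ I, ∀ t ∈ T', c t (M.g m) = a m) {t₁ : Cm p} (ht₁ : t₁ ∈ T') :
    (∀ i, ∀ z ∈ ball (0 : ℂ) 2, ContinuousAt (fun x : Cm p × ℂ => u x.1 i x.2) (t₁, z)) ∧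
      ∀ γ, ContinuousAt (fun t => c t γ) t₁ := by
  have hT : ∀ᶠ t in 𝓝 t₁, t ∈ T' := D.isOpen.mem_nhds ht₁
  obtain ⟨v, ε, -, h2, h3, -, -⟩ := conv hC2 𝓕 (D.sub ht₁) (D.seq ht₁) M (hG t₁ ht₁) i₀
    (a₀ := a₀) (tendsto_const_nhds.congr' (hT.mono fun t ht => (h0 t ht).symm)) (a := a)
    (fun m hm => tendsto_const_nhds.congr' (hT.mono fun t ht => (hI m hm t ht).symm))
  refine ⟨fun i z hz => ?_, fun γ => ?_⟩
  · have h4 := h2 i z hz
    rw [← nhds_prod_eq] at h4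
    exact continuousAt_of_tendsto_nhds h4
  · exact continuousAt_of_tendsto_nhds (h3 γ)

theorem Dat.differentiableAt (hC2 : C2Stmt) (D : Dat 𝓕 T' q u c) {n : ℕ} (M : Mark Γ n)
    {I : Set (Fin n)} (hG : ∀ t (ht : t ∈ T'), Good (𝓕.at t (D.sub ht)) M I) (i₀ : Fin 𝓕.N)
    {a₀ : ℂ} (h0 : ∀ t ∈ T', u t i₀ 0 = a₀) {a : Fin n → ℂ}
    (hI : ∀ m ∈ I, ∀ t ∈ T', c t (M.g m) = a m) {t₁ : Cm p} (ht₁ : t₁ ∈ T') (d : Cm p) :
    (∀ i, ∀ z ∈ ball (0 : ℂ) 2, DifferentiableAt ℂ (fun s : ℂ => u (t₁ + s • d) i z) 0) ∧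
      ∀ γ, DifferentiableAt ℂ (fun s : ℂ => c (t₁ + s • d) γ) 0 := by
  obtain ⟨B, hB⟩ := D.exists_seq ht₁ d
  have hT : ∀ᶠ s : ℂ in 𝓝[≠] (0 : ℂ), t₁ + s • d ∈ T' :=
    hB.lim.eventually (D.isOpen.mem_nhds ht₁)
  obtain ⟨v, ε, -, h2, h3, -, -⟩ := conv hC2 𝓕 (D.sub ht₁) hB M (hG t₁ ht₁) i₀
    (a₀ := 0) (tendsto_const_nhds.congr' (hT.mono fun s hs => by
      beta_reduce; rw [h0 _ hs, h0 t₁ ht₁]; ring)) (a := fun _ => 0)
    (fun m hm => tendsto_const_nhds.congr' (hT.mono fun s hs => by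
      beta_reduce; rw [hI m hm _ hs, hI m hm t₁ ht₁]; ring))
  refine ⟨fun i z hz => ?_, fun γ => ?_⟩
  · have h4 : Tendsto (fun s : ℂ => s⁻¹ * (u (t₁ + s • d) i z - u t₁ i z)) (𝓝[≠] 0)
        (𝓝 (v i z)) :=
      tendsto_of_prod (f := fun s z => s⁻¹ * (u (t₁ + s • d) i z - u t₁ i z)) (h2 i z hz)
        tendsto_const_nhds
    have h5 : HasDerivAt (fun s : ℂ => u (t₁ + s • d) i z) (v i z) 0 := by
      rw [hasDerivAt_iff_tendsto_slope_zero]
      simpa using h4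
    exact h5.differentiableAt
  · have h5 : HasDerivAt (fun s : ℂ => c (t₁ + s • d) γ) (ε γ) 0 := by
      rw [hasDerivAt_iff_tendsto_slope_zero]
      simpa using h3 γ
    exact h5.differentiableAt

/-- **Analyticity in the parameter.** -/
theorem Dat.analytic (hC2 : C2Stmt) (D : Dat 𝓕 T' q u c) {n : ℕ} (M : Mark Γ n)
    {I : Set (Fin n)} (hG : ∀ t (ht : t ∈ T'), Good (𝓕.at t (D.sub ht)) M I) (i₀ : Fin 𝓕.N)
    {a₀ : ℂ} (h0 : ∀ t ∈ T', u t i₀ 0 = a₀) {a : Fin n → ℂ}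
    (hI : ∀ m ∈ I, ∀ t ∈ T', c t (M.g m) = a m) :
    (∀ i, ∀ t ∈ T', ∀ z ∈ ball (0 : ℂ) 3,
      AnalyticAt ℂ (fun x : Cm p × ℂ => u x.1 i x.2) (t, z)) ∧
      ∀ γ, ∀ t ∈ T', AnalyticAt ℂ (fun t => c t γ) t := by
  have hcont := fun t (ht : t ∈ T') => D.continuousAt hC2 M hG i₀ h0 hI ht
  have hdiff := fun t (ht : t ∈ T') => D.differentiableAt hC2 M hG i₀ h0 hI ht
  have hc : ∀ γ, ∀ t ∈ T', AnalyticAt ℂ (fun t => c t γ) t := by
    intro γ t ht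
    exact MF.analyticAt_of_differentiableOn D.isOpen (differentiableOn_of_dir D.isOpen
      (fun t ht => (hcont t ht).2 γ) (fun t ht d => (hdiff t ht d).2 γ)) ht
  have h2 : ∀ i, ∀ t ∈ T', ∀ z ∈ ball (0 : ℂ) 2,
      AnalyticAt ℂ (fun x : Cm p × ℂ => u x.1 i x.2) (t, z) := by
    intro i t ht z hz
    have h3 : ∀ x ∈ (ball (0 : ℂ) 2) ×ˢ T',
        DifferentiableAt ℂ (fun x : ℂ × Cm p => u x.2 i x.1) x := by
      rintro ⟨z, t⟩ ⟨hz, ht⟩
      refine P272.GEO.differentiableAt_joint (U := ball (0 : ℂ) 2) (V := T')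
        (G := fun z t => u t i z) isOpen_ball D.isOpen ?_ ?_ ?_ hz ht
      · rintro ⟨z, t⟩ ⟨hz, ht⟩
        have h4 : ContinuousAt (fun x : ℂ × Cm p => (x.2, x.1)) (z, t) := by fun_prop
        exact (ContinuousAt.comp (f := fun x : ℂ × Cm p => (x.2, x.1))
          (g := fun x : Cm p × ℂ => u x.1 i x.2) ((hcont t ht).1 i z hz) h4).continuousWithinAt
      · intro t ht
        exact (D.hol t ht i).mono (ball_subset_ball (by norm_num))
      · intro z hz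
        refine differentiableOn_of_dir D.isOpen (fun t ht => ?_) (fun t ht d => (hdiff t ht d).1 i z hz)
        have h4 : ContinuousAt (fun t : Cm p => (t, z)) t := by fun_prop
        exact ContinuousAt.comp (f := fun t : Cm p => (t, z))
          (g := fun x : Cm p × ℂ => u x.1 i x.2) ((hcont t ht).1 i z hz) h4
    have h4 : AnalyticAt ℂ (fun x : ℂ × Cm p => u x.2 i x.1) (z, t) :=
      MF.analyticAt_of_differentiableOn (isOpen_ball.prod D.isOpen)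
        (fun x hx => (h3 x hx).differentiableWithinAt) ⟨hz, ht⟩
    have h5 : AnalyticAt ℂ (fun x : Cm p × ℂ => (x.2, x.1)) (t, z) :=
      analyticAt_snd.prod analyticAt_fst
    exact AnalyticAt.comp (g := fun x : ℂ × Cm p => u x.2 i x.1)
      (f := fun x : Cm p × ℂ => (x.2, x.1)) h4 h5
  refine ⟨fun i t ht z hz => ?_, hc⟩
  obtain ⟨γ, j, w, hw, he⟩ := 𝓕.cover t (D.sub ht) (𝓕.σ i t z)
  have hw3 : w ∈ ball (0 : ℂ) 3 := by rw [mem_ball_zero_iff]; linarith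
  have hw2 : w ∈ ball (0 : ℂ) 2 := by rw [mem_ball_zero_iff]; linarith
  by_cases hij : i = j
  · subst hij
    obtain ⟨-, h3⟩ := 𝓕.inj i t (D.sub ht) _ hw3 _ hz γ he
    exact h2 i t ht z (h3 ▸ hw2)
  · obtain ⟨hq1, hq2⟩ := D.ana t ht i j hij z hz w hw3 γ he.symm
    obtain ⟨θ, k1, k2, k3⟩ := exists_trans 𝓕 (D.sub ht) hz hw3 he.symm
    have hT : ∀ᶠ x : Cm p × ℂ in 𝓝 (t, z), x.1 ∈ T' :=
      (continuous_fst.tendsto (t, z)).eventually (D.isOpen.mem_nhds ht)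
    have h3 : (fun x : Cm p × ℂ => u x.1 i x.2) =ᶠ[𝓝 (t, z)]
        fun x => u x.1 j (θ x) + q j (θ x) + c x.1 γ - q i x.2 := by
      filter_upwards [hT, k3] with x k4 k5
      have := D.rel x.1 k4 i j _ k5.2.1 _ k5.2.2.1 γ k5.2.2.2.1
      linear_combination this
    refine AnalyticAt.congr ?_ h3.symm
    have h4 : AnalyticAt ℂ (fun x : Cm p × ℂ => (x.1, θ x)) (t, z) := analyticAt_fst.prod k1
    have h5 : AnalyticAt ℂ (fun x : Cm p × ℂ => u x.1 j (θ x)) (t, z) := by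
      have h6 : AnalyticAt ℂ (fun x : Cm p × ℂ => u x.1 j x.2) (t, θ (t, z)) := by
        rw [k2]
        exact h2 j t ht w hw2
      exact AnalyticAt.comp (g := fun x : Cm p × ℂ => u x.1 j x.2)
        (f := fun x : Cm p × ℂ => (x.1, θ x)) h6 h4
    have h6 : AnalyticAt ℂ (fun x : Cm p × ℂ => q j (θ x)) (t, z) := by
      have h7 : AnalyticAt ℂ (q j) (θ (t, z)) := by rwa [k2]
      exact h7.comp k1
    have h7 : AnalyticAt ℂ (fun x : Cm p × ℂ => c x.1 γ) (t, z) :=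
      AnalyticAt.comp (g := fun t => c t γ) (f := fun x : Cm p × ℂ => x.1) (hc γ t ht)
        analyticAt_fst
    have h8 : AnalyticAt ℂ (fun x : Cm p × ℂ => q i x.2) (t, z) :=
      AnalyticAt.comp (g := q i) (f := fun x : Cm p × ℂ => x.2) hq1 analyticAt_snd
    exact ((h5.add h6).add h7).sub h8

end Vale.Agent.P281.H603
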