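import Vale.Agent.P281.H603.Pole

/-!
# P281, theorem T-D (helper603): block D0, holomorphic dependence in genus 0

`d0Stmt : C2Stmt → C3Stmt → D0Stmt`.
-/

open Set Filter Metric
open scoped Topology ContDiff

noncomputable section

namespace Vale.Agent.P281.H603

open Vale.Agent.P281.H64

/-- The whole sheet, as a disc. -/
def Disc.full {N : ℕ} (i : Fin N) : Disc N where
  j := i
  c := 0
  r := 1
  pos := one_pos
  sub z hz := by simpa using hz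

theorem Disc.full_A {N : ℕ} (i : Fin N) (z : ℂ) : (Disc.full i).A z = z := by
  simp [Disc.full, Disc.A]

section
variable {p : ℕ} {E Γ : Type} [TopologicalSpace E] [Group Γ] [MulAction Γ E]

/-- The functions on the refined sheets. -/
def uFun (𝓕 : Fam p E Γ) (i₀ : Fin 𝓕.N) {N' : ℕ} (δ : Fin N' → Disc 𝓕.N) (m : Cm p → E → ℂ)
    (t : Cm p) : Fin (N' + 1) → ℂ → ℂ :=
  Fin.cons (fun z => if z = 0 then 0 else m t (𝓕.σ i₀ t z) - z⁻¹)
    (fun a z => m t (𝓕.σ (δ a).j t ((δ a).A z)))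

/-- The polar parts. -/
def qFun (N' : ℕ) : Fin (N' + 1) → ℂ → ℂ := Fin.cons (fun z => z⁻¹) (fun _ _ => 0)

/-- The refined discs. -/
def dFun {N : ℕ} (i₀ : Fin N) {N' : ℕ} (δ : Fin N' → Disc N) : Fin (N' + 1) → Disc N :=
  Fin.cons (Disc.full i₀) δ

/-- The polar functions at all the parameters. -/
structure Polar (𝓕 : Fam p E Γ) (i₀ : Fin 𝓕.N) (T' : Set (Cm p)) (m : Cm p → E → ℂ)
    (k : Cm p → ℂ → ℂ) {N' : ℕ} (δ : Fin N' → Disc 𝓕.N) : Prop where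
  sub : T' ⊆ 𝓕.T
  isOpen : IsOpen T'
  inv : ∀ t ∈ T', ∀ (γ : Γ) e, m t (γ • e) = m t e
  ana : ∀ t ∈ T', ∀ j, ∀ z ∈ ball (0 : ℂ) 3, (∀ γ : Γ, γ • 𝓕.σ i₀ t 0 ≠ 𝓕.σ j t z) →
    AnalyticAt ℂ (fun z => m t (𝓕.σ j t z)) z
  kana : ∀ t ∈ T', AnalyticAt ℂ (k t) 0
  kzero : ∀ t ∈ T', k t 0 = 0
  eq : ∀ t ∈ T', ∀ᶠ z in 𝓝[≠] (0 : ℂ), m t (𝓕.σ i₀ t z) = z⁻¹ + k t z
  avoid : ∀ t ∈ T', ∀ b, ∀ z ∈ ball (0 : ℂ) 3, ∀ γ : Γ,
    γ • 𝓕.σ i₀ t 0 ≠ 𝓕.σ (δ b).j t ((δ b).A z)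
  cover : ∀ t ∈ T', ∀ e : E, ∃ (γ : Γ) (a : Fin (N' + 1)) (z : ℂ), ‖z‖ < 1 ∧
      γ • 𝓕.σ (dFun i₀ δ a).j t ((dFun i₀ δ a).A z) = e

variable {𝓕 : Fam p E Γ} {i₀ : Fin 𝓕.N} {T' : Set (Cm p)}
  {m : Cm p → E → ℂ} {k : Cm p → ℂ → ℂ} {N' : ℕ} {δ : Fin N' → Disc 𝓕.N}

theorem Polar.ne_zero (P : Polar 𝓕 i₀ T' m k δ) {t : Cm p} (ht : t ∈ T') {b : Fin N'} {z w : ℂ}
    (hw : w ∈ ball (0 : ℂ) 3) {γ : Γ} (h : γ • 𝓕.σ i₀ t z = 𝓕.σ (δ b).j t ((δ b).A w)) :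
    z ≠ 0 := by
  rintro rfl
  exact P.avoid t ht b w hw γ h

/-- The analyticity off the pole. -/
theorem Polar.analytic_off (P : Polar 𝓕 i₀ T' m k δ) (hu : ∀ a : Fin (N' + 1), ∀ t ∈ T',
    ∀ z ∈ ball (0 : ℂ) 3, AnalyticAt ℂ (fun x : Cm p × ℂ => uFun 𝓕 i₀ δ m x.1 a x.2) (t, z))
    (j : Fin 𝓕.N) {t : Cm p} (ht : t ∈ T') {z : ℂ} (hz : z ∈ ball (0 : ℂ) 3)
    (hnot : ∀ γ : Γ, γ • 𝓕.σ i₀ t 0 ≠ 𝓕.σ j t z) :
    AnalyticAt ℂ (fun q : Cm p × ℂ => m q.1 (𝓕.σ j q.1 q.2)) (t, z) := by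
  obtain ⟨γ, a, w, hw, he⟩ := P.cover t ht (𝓕.σ j t z)
  have hw3 : w ∈ ball (0 : ℂ) 3 := by rw [mem_ball_zero_iff]; linarith
  obtain ⟨θ, h1, h2, h3⟩ := 𝓕.hol j (dFun i₀ δ a).j t (P.sub ht) z hz ((dFun i₀ δ a).A w)
    ((dFun i₀ δ a).sub w hw3) γ he.symm
  set ϑ : Cm p × ℂ → ℂ := fun q => (dFun i₀ δ a).B (θ q) with hϑ
  have hϑa : AnalyticAt ℂ ϑ (t, z) :=
    AnalyticAt.comp (g := (dFun i₀ δ a).B) ((dFun i₀ δ a).analyticAt_B _) h1
  have hϑ0 : ϑ (t, z) = w := by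
    simp only [hϑ]
    rw [h2, Disc.B_A]
  have hT : ∀ᶠ q : Cm p × ℂ in 𝓝 (t, z), q.1 ∈ T' :=
    (continuous_fst.tendsto (t, z)).eventually (P.isOpen.mem_nhds ht)
  have hpair : AnalyticAt ℂ (fun q : Cm p × ℂ => (q.1, ϑ q)) (t, z) := analyticAt_fst.prod hϑa
  have hua : AnalyticAt ℂ (fun q : Cm p × ℂ => uFun 𝓕 i₀ δ m q.1 a (ϑ q)) (t, z) := by
    have h4 : AnalyticAt ℂ (fun x : Cm p × ℂ => uFun 𝓕 i₀ δ m x.1 a x.2) (t, ϑ (t, z)) := by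
      rw [hϑ0]
      exact hu a t ht w hw3
    exact AnalyticAt.comp (g := fun x : Cm p × ℂ => uFun 𝓕 i₀ δ m x.1 a x.2)
      (f := fun q : Cm p × ℂ => (q.1, ϑ q)) h4 hpair
  have hm : ∀ᶠ q : Cm p × ℂ in 𝓝 (t, z), m q.1 (𝓕.σ j q.1 q.2) =
      m q.1 (𝓕.σ (dFun i₀ δ a).j q.1 ((dFun i₀ δ a).A (ϑ q))) := by
    filter_upwards [hT, h3] with q k1 k2
    rw [k2, P.inv q.1 k1, Disc.A_B]
  clear_value ϑ
  revert he hua hm
  refine Fin.cases ?_ (fun b => ?_) a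
  · intro he hua hm
    have hfull : dFun i₀ δ 0 = Disc.full i₀ := rfl
    have hw0 : w ≠ 0 := by
      rintro rfl
      refine hnot γ ?_
      rw [← he, hfull, Disc.full_A]
      rfl
    have hϑne : ∀ᶠ q in 𝓝 (t, z), ϑ q ≠ 0 :=
      hϑa.continuousAt.eventually_ne (by rw [hϑ0]; exact hw0)
    have h4 : (fun q : Cm p × ℂ => m q.1 (𝓕.σ j q.1 q.2)) =ᶠ[𝓝 (t, z)]
        fun q => uFun 𝓕 i₀ δ m q.1 0 (ϑ q) + (ϑ q)⁻¹ := by
      filter_upwards [hm, hϑne] with q k1 k2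
      rw [k1, hfull, Disc.full_A]
      show _ = (if ϑ q = 0 then 0 else m q.1 (𝓕.σ i₀ q.1 (ϑ q)) - (ϑ q)⁻¹) + (ϑ q)⁻¹
      rw [if_neg k2, sub_add_cancel]
      rfl
    exact (hua.add (hϑa.inv (by rw [hϑ0]; exact hw0))).congr h4.symm
  · intro he hua hm
    exact hua.congr (by
      filter_upwards [hm] with q k1
      rw [k1]
      rfl)

variable [ContinuousConstSMul Γ E]

/-- The refined family. -/
def Polar.fam (P : Polar 𝓕 i₀ T' m k δ) : Fam p E Γ :=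
  refineFam 𝓕 T' P.isOpen P.sub (dFun i₀ δ) P.cover

theorem Polar.σ_zero (P : Polar 𝓕 i₀ T' m k δ) (t : Cm p) (z : ℂ) :
    P.fam.σ (0 : Fin (N' + 1)) t z = 𝓕.σ i₀ t z := by
  show 𝓕.σ (Disc.full i₀).j t ((Disc.full i₀).A z) = 𝓕.σ i₀ t z
  rw [Disc.full_A]
  rfl

theorem Polar.σ_succ (P : Polar 𝓕 i₀ T' m k δ) (t : Cm p) (a : Fin N') (z : ℂ) :
    P.fam.σ (Fin.succ a : Fin (N' + 1)) t z = 𝓕.σ (δ a).j t ((δ a).A z) := rfl

theorem Polar.dat (P : Polar 𝓕 i₀ T' m k δ) :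
    Dat P.fam T' (qFun N') (uFun 𝓕 i₀ δ m) (fun _ _ => 0) where
  sub := Subset.rfl
  isOpen := P.isOpen
  hol t ht a := by
    refine Fin.cases ?_ (fun b => ?_) a
    · show DifferentiableOn ℂ (fun z => if z = 0 then 0 else m t (𝓕.σ i₀ t z) - z⁻¹) (ball 0 3)
      intro z hz
      by_cases h0 : z = 0
      · subst h0
        have h1 : (fun z => if z = 0 then 0 else m t (𝓕.σ i₀ t z) - z⁻¹) =ᶠ[𝓝 0] k t := by
          have h2 := P.eq t ht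
          rw [eventually_nhdsWithin_iff] at h2
          filter_upwards [h2] with z hz
          by_cases h3 : z = 0
          · subst h3
            simp [P.kzero t ht]
          · rw [if_neg h3, hz h3]
            ring
        exact ((P.kana t ht).differentiableAt.congr_of_eventuallyEq h1).differentiableWithinAt
      · have h1 : (fun z => if z = 0 then 0 else m t (𝓕.σ i₀ t z) - z⁻¹) =ᶠ[𝓝 z]
            fun z => m t (𝓕.σ i₀ t z) - z⁻¹ := by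
          filter_upwards [isOpen_ne.mem_nhds h0] with w hw
          rw [if_neg hw]
        have h2 : DifferentiableAt ℂ (fun z => m t (𝓕.σ i₀ t z)) z := by
          refine (P.ana t ht i₀ z hz fun γ hγ => ?_).differentiableAt
          exact h0 (𝓕.inj i₀ t (P.sub ht) 0 (mem_ball_self (by norm_num)) z hz γ hγ).2.symm
        exact ((h2.sub (differentiableAt_inv h0)).congr_of_eventuallyEq h1).differentiableWithinAt
    · show DifferentiableOn ℂ (fun z => m t (𝓕.σ (δ b).j t ((δ b).A z))) (ball 0 3)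
      intro z hz
      have h1 := P.ana t ht (δ b).j _ ((δ b).sub z hz) (P.avoid t ht b z hz)
      have h2 : AnalyticAt ℂ (fun z => m t (𝓕.σ (δ b).j t ((δ b).A z))) z :=
        AnalyticAt.comp (g := fun z => m t (𝓕.σ (δ b).j t z)) (f := (δ b).A) h1
          ((δ b).analyticAt_A z)
      exact h2.differentiableAt.differentiableWithinAt
  add t ht a b := by simp
  ana t ht a b := by
    refine Fin.cases ?_ (fun a => ?_) a <;> refine Fin.cases ?_ (fun b => ?_) b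
    · exact fun h => absurd rfl h
    · intro _ z hz w hw γ h
      rw [P.σ_zero, P.σ_succ] at h
      have h1 : z ≠ 0 := P.ne_zero ht hw (γ := γ⁻¹) (b := b) (by rw [h, inv_smul_smul])
      exact ⟨analyticAt_inv h1, analyticAt_const⟩
    · intro _ z hz w hw γ h
      rw [P.σ_zero, P.σ_succ] at h
      have h1 : w ≠ 0 := P.ne_zero ht hz (γ := γ) (b := a) h.symm
      exact ⟨analyticAt_const, analyticAt_inv h1⟩
    · intro _ z hz w hw γ h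
      exact ⟨analyticAt_const, analyticAt_const⟩
  rel t ht a b := by
    refine Fin.cases ?_ (fun a => ?_) a <;> refine Fin.cases ?_ (fun b => ?_) b
    · intro z hz w hw γ h
      rw [P.σ_zero, P.σ_zero] at h
      have h1 := (𝓕.inj i₀ t (P.sub ht) w hw z hz γ h.symm).2
      rw [h1, add_zero]
    · intro z hz w hw γ h
      rw [P.σ_zero, P.σ_succ] at h
      have h1 : z ≠ 0 := P.ne_zero ht hw (γ := γ⁻¹) (b := b) (by rw [h, inv_smul_smul])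
      show (if z = 0 then 0 else m t (𝓕.σ i₀ t z) - z⁻¹) + z⁻¹ =
        m t (𝓕.σ (δ b).j t ((δ b).A w)) + 0 + 0
      rw [if_neg h1, h, P.inv t ht]
      ring
    · intro z hz w hw γ h
      rw [P.σ_zero, P.σ_succ] at h
      have h1 : w ≠ 0 := P.ne_zero ht hz (γ := γ) (b := a) h.symm
      show m t (𝓕.σ (δ a).j t ((δ a).A z)) + 0 =
        (if w = 0 then 0 else m t (𝓕.σ i₀ t w) - w⁻¹) + w⁻¹ + 0
      rw [if_neg h1, h, P.inv t ht]
      ring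
    · intro z hz w hw γ h
      rw [P.σ_succ, P.σ_succ] at h
      show m t (𝓕.σ (δ a).j t ((δ a).A z)) + 0 = m t (𝓕.σ (δ b).j t ((δ b).A w)) + 0 + 0
      rw [h, P.inv t ht]
      ring

end

/-- **Block D0.** -/
theorem d0Stmt (hC2 : C2Stmt) (hC3 : C3Stmt) : D0Stmt := by
  classical
  intro p E Γ _ _ _ _ _ _ 𝓕 M t₀ ht₀ i₀
  have hne : Nonempty E := inferInstance
  have hper : ∀ (S : Sheets E Γ) (h : E → ℂ) (c : Γ → ℂ), Add S h c → ∀ γ, c γ = 0 := by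
    intro S h c H γ
    rw [mark_complex M (add_hom H) γ]
    simp
  have hpole : ∀ t, ∃ (m : E → ℂ) (k : ℂ → ℂ), t ∈ 𝓕.T → (∀ (γ : Γ) e, m (γ • e) = m e) ∧
      (∀ j, ∀ z ∈ ball (0 : ℂ) 3, (∀ γ : Γ, γ • 𝓕.σ i₀ t 0 ≠ 𝓕.σ j t z) →
        AnalyticAt ℂ (fun z => m (𝓕.σ j t z)) z) ∧
      AnalyticAt ℂ k 0 ∧ k 0 = 0 ∧ ∀ᶠ z in 𝓝[≠] (0 : ℂ), m (𝓕.σ i₀ t z) = z⁻¹ + k z := by
    intro t
    by_cases ht : t ∈ 𝓕.T
    swap
    · exact ⟨fun _ => 0, fun _ => 0, fun h => absurd h ht⟩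
    obtain ⟨m, k, h1, h2, h3, h4⟩ := hC3 E Γ (𝓕.at t ht) i₀ 0 (by simp) (fun h c H => by
      have h5 := (hC2 E Γ (𝓕.at t ht)).2 h c H (fun γ => by rw [hper _ h c H, Complex.zero_re])
      have h6 : (fun z => h ((𝓕.at t ht).σ i₀ z)) = fun _ => h ((𝓕.at t ht).σ i₀ 0) :=
        funext fun z => h5 _ _
      rw [h6, deriv_const])
    refine ⟨fun e => m e - k 0, fun z => k z - k 0, fun _ => ⟨fun γ e => by beta_reduce; rw [h1], ?_,
      h3.sub analyticAt_const, sub_self _, ?_⟩⟩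
    · intro j z hz hnot
      exact (h2 j z hz hnot).sub analyticAt_const
    · filter_upwards [h4] with z hz
      have h5 : m (𝓕.σ i₀ t z) = (z - 0)⁻¹ + k z := hz
      rw [h5, sub_zero]
      ring
  choose m k hmk using hpole
  obtain ⟨N', δ, hδ1, hδ2⟩ := exists_discs (𝓕.at t₀ ht₀) i₀
  have hev1 : ∀ᶠ t in 𝓝 t₀, ∀ b : Fin N', ∀ z ∈ ball (0 : ℂ) 3, ∀ γ : Γ,
      γ • 𝓕.σ i₀ t 0 ≠ 𝓕.σ (δ b).j t ((δ b).A z) := by
    rw [eventually_all]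
    exact fun b => eventually_avoid 𝓕 ht₀ i₀ (δ b) (hδ1 b)
  have hev2 := eventually_cover 𝓕 ht₀ i₀ δ hδ2
  have hT : ∀ᶠ t in 𝓝 t₀, t ∈ 𝓕.T := 𝓕.isOpen.mem_nhds ht₀
  obtain ⟨T', hT'1, hT'2, hT'3⟩ := _root_.eventually_nhds_iff.1 (hT.and (hev1.and hev2))
  have P : Polar 𝓕 i₀ T' m k δ :=
    { sub := fun t ht => (hT'1 t ht).1
      isOpen := hT'2
      inv := fun t ht => (hmk t (hT'1 t ht).1).1
      ana := fun t ht => (hmk t (hT'1 t ht).1).2.1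
      kana := fun t ht => (hmk t (hT'1 t ht).1).2.2.1
      kzero := fun t ht => (hmk t (hT'1 t ht).1).2.2.2.1
      eq := fun t ht => (hmk t (hT'1 t ht).1).2.2.2.2
      avoid := fun t ht => (hT'1 t ht).2.1
      cover := by
        intro t ht e
        rcases (hT'1 t ht).2.2 e with ⟨γ, w, hw, he⟩ | ⟨a, γ, w, hw, he⟩
        · refine ⟨γ, 0, w, hw, ?_⟩
          have hfull : dFun i₀ δ 0 = Disc.full i₀ := rfl
          rw [hfull, Disc.full_A]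
          exact he
        · exact ⟨γ, Fin.succ a, w, hw, he⟩ }
  have hana := P.dat.analytic hC2 M (I := ∅) (fun t ht h c H _ γ => hper _ h c H γ)
    (0 : Fin (N' + 1)) (a₀ := 0) (fun t ht => if_pos rfl) (a := fun _ => 0)
    (fun l hl => absurd hl (notMem_empty l))
  refine ⟨T', m, fun x => uFun 𝓕 i₀ δ m x.1 0 x.2, P.sub, P.isOpen, hT'3, P.inv, ?_, ?_⟩
  · intro j t ht z hz hnot
    exact P.analytic_off (fun a t ht z hz => hana.1 a t ht z hz) j ht hz hnot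
  · intro t ht
    refine ⟨hana.1 (0 : Fin (N' + 1)) t ht 0 (mem_ball_self (by norm_num)), ?_⟩
    refine Eventually.of_forall fun q hq => ?_
    show m q.1 (𝓕.σ i₀ q.1 q.2) =
      q.2⁻¹ + (if q.2 = 0 then 0 else m q.1 (𝓕.σ i₀ q.1 q.2) - q.2⁻¹)
    rw [if_neg hq]
    ring

end Vale.Agent.P281.H603
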