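import Vale.Agent.P281.H603.Glue

/-!
# P281, theorem T-D, block D (helper603): boundedness
-/

open Set Filter Metric
open scoped Topology

namespace Vale.Agent.P281.H603

open Vale.Agent.P281.H64

theorem exists_max {N n : ℕ} (i₀ : Fin N) {u : Fin N → ℂ → ℂ}
    (hu : ∀ i, ContinuousOn (u i) (closedBall 0 2)) (e : Fin n → ℂ) :
    ∃ m : ℝ, (∀ i, ∀ z ∈ closedBall (0 : ℂ) 2, ‖u i z‖ ≤ m) ∧ (∀ l, ‖e l‖ ≤ m) ∧
      ((∃ l, ‖e l‖ = m) ∨ ∃ i, ∃ z ∈ closedBall (0 : ℂ) 2, ‖u i z‖ = m) := by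
  have h1 : ∀ i, ∃ z ∈ closedBall (0 : ℂ) 2, IsMaxOn (fun z => ‖u i z‖) (closedBall 0 2) z :=
    fun i => (isCompact_closedBall (0 : ℂ) 2).exists_isMaxOn ⟨0, by simp⟩ (hu i).norm
  choose z hz hmax using h1
  have : Nonempty (Fin N ⊕ Fin n) := ⟨Sum.inl i₀⟩
  obtain ⟨x, hx⟩ := Finite.exists_max
    (Sum.elim (fun i => ‖u i (z i)‖) (fun l => ‖e l‖) : Fin N ⊕ Fin n → ℝ)
  refine ⟨_, fun i w hw => (hmax i hw).trans (hx (Sum.inl i)), fun l => hx (Sum.inr l), ?_⟩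
  rcases x with i | l
  · exact Or.inr ⟨i, z i, hz i, rfl⟩
  · exact Or.inl ⟨l, rfl⟩

theorem tendsto_of_prod {ι : Type*} {l : Filter ι} {f : ι → ℂ → ℂ} {z y : ℂ}
    (h : Tendsto (fun q : ι × ℂ => f q.1 q.2) (l ×ˢ 𝓝 z) (𝓝 y)) {z' : ι → ℂ}
    (hz : Tendsto z' l (𝓝 z)) : Tendsto (fun k => f k (z' k)) l (𝓝 y) :=
  h.comp (tendsto_id.prodMk hz)

variable {p : ℕ} {E Γ : Type} [TopologicalSpace E] [Group Γ] [MulAction Γ E]

/-- Limits along an ultrafilter of bounded data. -/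
theorem exists_limits (𝓕 : Fam p E Γ) {ι : Type} (U : Ultrafilter ι)
    {t : ι → Cm p} {t₁ : Cm p} (ht₁ : t₁ ∈ 𝓕.T) {u : ι → Fin 𝓕.N → ℂ → ℂ} {e : ι → Γ → ℂ}
    {B : Fin 𝓕.N → Fin 𝓕.N → Γ → ℂ → ℂ → ℂ} (H : Seq 𝓕 (U : Filter ι) t t₁ u e B) {n : ℕ}
    (M : Mark Γ n) {C : ℝ} (hC : ∀ᶠ k in (U : Filter ι),
      (∀ i, ∀ z ∈ closedBall (0 : ℂ) 2, ‖u k i z‖ ≤ C) ∧ ∀ l, ‖e k (M.g l)‖ ≤ C) :
    ∃ (v : Fin 𝓕.N → ℂ → ℂ) (ε : Γ → ℂ), (∀ i, DifferentiableOn ℂ (v i) (ball 0 2)) ∧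
      (∀ i, ∀ z ∈ ball (0 : ℂ) 2,
        Tendsto (fun q : ι × ℂ => u q.1 i q.2) ((U : Filter ι) ×ˢ 𝓝 z) (𝓝 (v i z))) ∧
      (∀ γ, Tendsto (fun k => e k γ) U (𝓝 (ε γ))) ∧ (∀ a b, ε (a * b) = ε a + ε b) ∧
      ∀ i j, ∀ z ∈ ball (0 : ℂ) 2, ∀ w ∈ ball (0 : ℂ) 2, ∀ γ : Γ,
        𝓕.σ i t₁ z = γ • 𝓕.σ j t₁ w → v i z - v j w - ε γ = B i j γ z w := by
  have h1 : ∀ i, ∃ v : ℂ → ℂ, DifferentiableOn ℂ v (ball 0 2) ∧ ∀ z ∈ ball (0 : ℂ) 2,
      Tendsto (fun q : ι × ℂ => u q.1 i q.2) ((U : Filter ι) ×ˢ 𝓝 z) (𝓝 (v z)) := by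
    intro i
    refine exists_limit U (f := fun k => u k i) (R := 2) (C := C) ?_ ?_
    · filter_upwards [H.hol] with k hk using (hk i).mono (ball_subset_ball (by norm_num))
    · filter_upwards [hC] with k hk z hz using hk.1 i z (ball_subset_closedBall hz)
  choose v hv hvl using h1
  have h2 : ∀ γ : Γ, ∃ y : ℂ, Tendsto (fun k => e k γ) U (𝓝 y) := by
    intro γ
    have h3 : ∀ᶠ k in (U : Filter ι), ‖e k γ‖ ≤ ∑ l, C * ‖(M.φ l γ : ℂ)‖ := by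
      filter_upwards [hC, H.add] with k hk hk2
      rw [mark_complex M hk2 γ]
      refine (norm_sum_le _ _).trans (Finset.sum_le_sum fun l _ => ?_)
      rw [norm_mul]
      exact mul_le_mul_of_nonneg_right (hk.2 l) (norm_nonneg _)
    obtain ⟨y, -, hy⟩ := exists_lim_of_bound U h3
    exact ⟨y, hy⟩
  choose ε hε using h2
  refine ⟨v, ε, hv, hvl, hε, fun a b => ?_, fun i j z hz w hw γ h => ?_⟩
  · refine tendsto_nhds_unique (hε (a * b)) (((hε a).add (hε b)).congr' ?_)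
    filter_upwards [H.add] with k hk using (hk a b).symm
  · have hz3 : z ∈ ball (0 : ℂ) 3 := ball_subset_ball (by norm_num) hz
    have hw3 : w ∈ ball (0 : ℂ) 3 := ball_subset_ball (by norm_num) hw
    obtain ⟨θ, k1, k2, k3⟩ := exists_trans 𝓕 ht₁ hz3 hw3 h
    have k4 : Tendsto (fun k => (t k, z)) (U : Filter ι) (𝓝 (t₁, z)) :=
      H.lim.prodMk_nhds tendsto_const_nhds
    have k5 : Tendsto (fun k => θ (t k, z)) (U : Filter ι) (𝓝 w) := by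
      have := k1.continuousAt.tendsto.comp k4
      rwa [k2] at this
    have k6 := H.rel i j z hz3 w hw3 γ h U le_rfl (fun _ => z) (fun k => θ (t k, z))
      tendsto_const_nhds k5 (by
        filter_upwards [k4.eventually k3] with k hk using hk.2.2.2.1)
    refine tendsto_nhds_unique ?_ k6
    have k7 : Tendsto (fun k => u k i z) U (𝓝 (v i z)) :=
      tendsto_of_prod (f := fun k => u k i) (hvl i z hz) tendsto_const_nhds
    have k8 : Tendsto (fun k => u k j (θ (t k, z))) U (𝓝 (v j w)) :=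
      tendsto_of_prod (f := fun k => u k j) (hvl j w hw) k5
    exact (k7.sub k8).sub (hε γ)

variable [T2Space E] [SimplyConnectedSpace E] [ContinuousConstSMul Γ E]

/-- A function which is holomorphic and additive, with trivial periods in `I`, and zero at a point,
is zero. -/
theorem eq_zero_of_good (hC2 : C2Stmt) (S : Sheets E Γ) {n : ℕ} (M : Mark Γ n) {I : Set (Fin n)}
    (hG : Good S M I) {v : Fin S.N → ℂ → ℂ} {ε : Γ → ℂ}
    (hv : ∀ i, DifferentiableOn ℂ (v i) (ball 0 2)) (hε : ∀ a b, ε (a * b) = ε a + ε b)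
    (hr : ∀ i j, ∀ z ∈ ball (0 : ℂ) 2, ∀ w ∈ ball (0 : ℂ) 2, ∀ γ : Γ,
      S.σ i z = γ • S.σ j w → v i z = v j w + ε γ)
    (hI : ∀ l ∈ I, ε (M.g l) = 0) {i₀ : Fin S.N} (h0 : v i₀ 0 = 0) :
    (∀ γ, ε γ = 0) ∧ ∀ i, ∀ z ∈ ball (0 : ℂ) 2, v i z = 0 := by
  obtain ⟨h, h1, h2⟩ := glue S hv hε hr
  have h3 : ∀ γ, ε γ = 0 := hG h ε h1 hI
  refine ⟨h3, fun i z hz => ?_⟩
  rw [← h2 i z hz, (hC2 E Γ S).2 h ε h1 (fun γ => by rw [h3 γ, Complex.zero_re]) _ (S.σ i₀ 0),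
    h2 i₀ 0 (by simp), h0]

/-- **Boundedness.** -/
theorem bdd (hC2 : C2Stmt) (𝓕 : Fam p E Γ) {ι : Type} (U : Ultrafilter ι)
    {t : ι → Cm p} {t₁ : Cm p} (ht₁ : t₁ ∈ 𝓕.T) {u : ι → Fin 𝓕.N → ℂ → ℂ} {e : ι → Γ → ℂ}
    {B : Fin 𝓕.N → Fin 𝓕.N → Γ → ℂ → ℂ → ℂ} (H : Seq 𝓕 (U : Filter ι) t t₁ u e B) {n : ℕ}
    (M : Mark Γ n) {I : Set (Fin n)} (hG : Good (𝓕.at t₁ ht₁) M I) (i₀ : Fin 𝓕.N) {C₀ : ℝ}
    (h0 : ∀ᶠ k in (U : Filter ι), ‖u k i₀ 0‖ ≤ C₀)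
    (hI : ∀ l ∈ I, ∀ᶠ k in (U : Filter ι), ‖e k (M.g l)‖ ≤ C₀) :
    ∃ C : ℝ, ∀ᶠ k in (U : Filter ι),
      (∀ i, ∀ z ∈ closedBall (0 : ℂ) 2, ‖u k i z‖ ≤ C) ∧ ∀ l, ‖e k (M.g l)‖ ≤ C := by
  classical
  -- the maximum
  have hex : ∀ k, ∃ m : ℝ, (∀ i, DifferentiableOn ℂ (u k i) (ball 0 3)) →
      (∀ i, ∀ z ∈ closedBall (0 : ℂ) 2, ‖u k i z‖ ≤ m) ∧ (∀ l, ‖e k (M.g l)‖ ≤ m) ∧
      ((∃ l, ‖e k (M.g l)‖ = m) ∨ ∃ i, ∃ z ∈ closedBall (0 : ℂ) 2, ‖u k i z‖ = m) := by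
    intro k
    by_cases hk : ∀ i, DifferentiableOn ℂ (u k i) (ball 0 3)
    · obtain ⟨m, hm⟩ := exists_max i₀ (u := u k)
        (fun i => ((hk i).mono (closedBall_subset_ball (by norm_num))).continuousOn)
        (fun l => e k (M.g l))
      exact ⟨m, fun _ => hm⟩
    · exact ⟨0, fun h => absurd h hk⟩
  choose m hm using hex
  by_contra hcon
  rw [not_exists] at hcon
  have hbig : ∀ C : ℝ, ∀ᶠ k in (U : Filter ι), C < m k := by
    intro C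
    have h1 := hcon C
    by_contra h2
    rw [← Ultrafilter.frequently_iff_eventually] at h2
    rw [not_frequently] at h2
    refine h1 ?_
    filter_upwards [h2, H.hol] with k k1 k2
    obtain ⟨k3, k4, -⟩ := hm k k2
    push Not at k1
    exact ⟨fun i z hz => (k3 i z hz).trans k1, fun l => (k4 l).trans k1⟩
  have hminf : Tendsto m U atTop := tendsto_atTop.2 fun C => (hbig C).mono fun k hk => hk.le
  have hinv : Tendsto (fun k => ((m k : ℂ))⁻¹) U (𝓝 0) := by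
    have h1 : Tendsto (fun k => (m k)⁻¹) U (𝓝 0) := tendsto_inv_atTop_zero.comp hminf
    have h2 := (Complex.continuous_ofReal.tendsto 0).comp h1
    simpa [Function.comp_def] using h2
  -- the normalised data
  set u' : ι → Fin 𝓕.N → ℂ → ℂ := fun k i z => (m k : ℂ)⁻¹ * u k i z with hu'
  set e' : ι → Γ → ℂ := fun k γ => (m k : ℂ)⁻¹ * e k γ with he'
  have H' : Seq 𝓕 (U : Filter ι) t t₁ u' e' (fun _ _ _ _ _ => 0) := by
    refine ⟨H.lim, ?_, ?_, ?_⟩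
    · filter_upwards [H.hol] with k hk i using (hk i).const_mul _
    · filter_upwards [H.add] with k hk a b
      simp only [he', hk a b]
      ring
    · intro i j z hz w hw γ hγ V hV z' w' hz' hw' hr
      have h1 := H.rel i j z hz w hw γ hγ V hV z' w' hz' hw' hr
      have h2 := (hinv.mono_left hV).mul h1
      rw [zero_mul] at h2
      refine h2.congr fun k => ?_
      simp only [hu', he']
      ring
  have hpos : ∀ᶠ k in (U : Filter ι), 0 < m k := hbig 0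
  have hC' : ∀ᶠ k in (U : Filter ι),
      (∀ i, ∀ z ∈ closedBall (0 : ℂ) 2, ‖u' k i z‖ ≤ 1) ∧ ∀ l, ‖e' k (M.g l)‖ ≤ 1 := by
    filter_upwards [hpos, H.hol] with k k1 k2
    obtain ⟨k3, k4, -⟩ := hm k k2
    have k5 : ‖(m k : ℂ)⁻¹‖ = (m k)⁻¹ := by
      rw [norm_inv, Complex.norm_real, Real.norm_of_nonneg k1.le]
    refine ⟨fun i z hz => ?_, fun l => ?_⟩
    · simp only [hu', norm_mul, k5]
      rw [inv_mul_le_iff₀ k1, mul_one]
      exact k3 i z hz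
    · simp only [he', norm_mul, k5]
      rw [inv_mul_le_iff₀ k1, mul_one]
      exact k4 l
  obtain ⟨v, ε, hv, hvl, hε, hadd, hrel⟩ := exists_limits 𝓕 U ht₁ H' M hC'
  -- the limit is zero
  have hεI : ∀ l ∈ I, ε (M.g l) = 0 := by
    intro l hl
    refine tendsto_nhds_unique (hε (M.g l)) ?_
    refine hinv.zero_mul_isBoundedUnder_le ?_
    exact ⟨C₀, by simpa using hI l hl⟩
  have hv0 : v i₀ 0 = 0 := by
    have h1 : Tendsto (fun k => u' k i₀ 0) U (𝓝 (v i₀ 0)) :=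
      tendsto_of_prod (f := fun k => u' k i₀) (hvl i₀ 0 (mem_ball_self (by norm_num)))
        tendsto_const_nhds
    refine tendsto_nhds_unique h1 ?_
    refine hinv.zero_mul_isBoundedUnder_le ?_
    exact ⟨C₀, by simpa using h0⟩
  have hrel' : ∀ i j, ∀ z ∈ ball (0 : ℂ) 2, ∀ w ∈ ball (0 : ℂ) 2, ∀ γ : Γ,
      𝓕.σ i t₁ z = γ • 𝓕.σ j t₁ w → v i z = v j w + ε γ := by
    intro i j z hz w hw γ h
    have := hrel i j z hz w hw γ h
    linear_combination this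
  obtain ⟨hε0, hvz⟩ := eq_zero_of_good (S := 𝓕.at t₁ ht₁) (v := v) (ε := ε) (i₀ := i₀) hC2 M hG
    hv hadd hrel' hεI hv0
  -- the maximum is attained
  have hatt : ∀ᶠ k in (U : Filter ι), (∃ l, ‖e' k (M.g l)‖ = 1) ∨
      ∃ i, ∃ z ∈ closedBall (0 : ℂ) 2, ‖u' k i z‖ = 1 := by
    filter_upwards [hpos, H.hol] with k k1 k2
    obtain ⟨-, -, k3⟩ := hm k k2
    have k5 : ‖(m k : ℂ)⁻¹‖ = (m k)⁻¹ := by
      rw [norm_inv, Complex.norm_real, Real.norm_of_nonneg k1.le]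
    rcases k3 with ⟨l, hl⟩ | ⟨i, z, hz, hl⟩
    · refine Or.inl ⟨l, ?_⟩
      simp only [he', norm_mul, k5]
      rw [hl, inv_mul_cancel₀ k1.ne']
    · refine Or.inr ⟨i, z, hz, ?_⟩
      simp only [hu', norm_mul, k5]
      rw [hl, inv_mul_cancel₀ k1.ne']
  rcases Ultrafilter.eventually_or.1 hatt with h1 | h1
  · obtain ⟨l, hl⟩ := Ultrafilter.eventually_exists_iff.1 h1
    have h2 := (hε (M.g l)).norm
    rw [hε0, norm_zero] at h2
    have h3 : Tendsto (fun k => ‖e' k (M.g l)‖) U (𝓝 1) :=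
      tendsto_const_nhds.congr' (hl.mono fun k hk => hk.symm)
    exact zero_ne_one (tendsto_nhds_unique h2 h3)
  · obtain ⟨i, hi⟩ := Ultrafilter.eventually_exists_iff.1 h1
    have h2 : ∀ k, ∃ z : ℂ, (∃ z ∈ closedBall (0 : ℂ) 2, ‖u' k i z‖ = 1) →
        (z ∈ closedBall (0 : ℂ) 2 ∧ ‖u' k i z‖ = 1) := fun k => by
      by_cases h : ∃ z ∈ closedBall (0 : ℂ) 2, ‖u' k i z‖ = 1
      · obtain ⟨z, hz⟩ := h
        exact ⟨z, fun _ => hz⟩
      · exact ⟨0, fun h' => absurd h' h⟩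
    choose z hz using h2
    have hz2 : ∀ᶠ k in (U : Filter ι), ‖z k‖ ≤ 2 := by
      filter_upwards [hi] with k hk using by simpa using (hz k hk).1
    obtain ⟨z₀, hz₀2, hz₀⟩ := exists_lim_of_bound U hz2
    have htT : ∀ᶠ k in (U : Filter ι), t k ∈ 𝓕.T := H.lim.eventually (𝓕.isOpen.mem_nhds ht₁)
    have h3 : ∀ k, ∃ (γ : Γ) (j : Fin 𝓕.N) (w : ℂ), t k ∈ 𝓕.T →
        (‖w‖ < 1 ∧ γ • 𝓕.σ j (t k) w = 𝓕.σ i (t k) (z k)) := fun k => by
      by_cases h : t k ∈ 𝓕.T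
      · obtain ⟨γ, j, w, hw⟩ := 𝓕.cover (t k) h (𝓕.σ i (t k) (z k))
        exact ⟨γ, j, w, fun _ => hw⟩
      · exact ⟨1, i₀, 0, fun h' => absurd h' h⟩
    choose γ j' w hw using h3
    obtain ⟨j, hj⟩ := eventually_const_of_finite U j'
    have hw1 : ∀ᶠ k in (U : Filter ι), ‖w k‖ ≤ 1 := by
      filter_upwards [htT] with k hk using (hw k hk).1.le
    obtain ⟨w₀, hw₀1, hw₀⟩ := exists_lim_of_bound U hw1
    have hz₀3 : z₀ ∈ ball (0 : ℂ) 3 := by rw [mem_ball_zero_iff]; linarith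
    have hw₀3 : w₀ ∈ ball (0 : ℂ) 3 := by rw [mem_ball_zero_iff]; linarith
    have hw₀2 : w₀ ∈ ball (0 : ℂ) 2 := by rw [mem_ball_zero_iff]; linarith
    have hr1 : ∀ᶠ k in (U : Filter ι), 𝓕.σ i (t k) (z k) = γ k • 𝓕.σ j (t k) (w k) := by
      filter_upwards [htT, hj] with k k1 k2
      rw [← k2]
      exact (hw k k1).2.symm
    obtain ⟨a, ha, hr0⟩ := fam_proper 𝓕 ht₁ H.lim hz₀3 hw₀3 hz₀ hw₀ hr1
    have hr2 : ∀ᶠ k in (U : Filter ι), 𝓕.σ i (t k) (z k) = a • 𝓕.σ j (t k) (w k) := by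
      filter_upwards [hr1, ha] with k k1 k2
      rw [← k2]
      exact k1
    have h4 := H'.rel i j z₀ hz₀3 w₀ hw₀3 a hr0 U le_rfl z w hz₀ hw₀ hr2
    have h5 : Tendsto (fun k => u' k j (w k)) U (𝓝 (v j w₀)) :=
      tendsto_of_prod (f := fun k => u' k j) (hvl j w₀ hw₀2) hw₀
    have h6 := (h4.add h5).add (hε a)
    rw [hvz j w₀ hw₀2, hε0, add_zero, add_zero] at h6
    have h7 : Tendsto (fun k => u' k i (z k)) U (𝓝 0) := by
      refine h6.congr fun k => ?_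
      ring
    have h8 := h7.norm
    rw [norm_zero] at h8
    have h9 : Tendsto (fun k => ‖u' k i (z k)‖) U (𝓝 1) :=
      tendsto_const_nhds.congr' (hi.mono fun k hk => (hz k hk).2.symm)
    exact zero_ne_one (tendsto_nhds_unique h8 h9)

end Vale.Agent.P281.H603
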