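import Vale.Agent.P281.H603.Conv
import Vale.Agent.P281.MF.Hol
import Vale.Agent.P272.GEO.Osgood

/-!
# P281, theorem T-D, block D (helper603): holomorphic dependence on the parameter
-/

open Set Filter Metric
open scoped Topology

namespace Vale.Agent.P281.H603

open Vale.Agent.P281.H64

variable {p : ℕ} {E Γ : Type} [TopologicalSpace E] [Group Γ] [MulAction Γ E]

/-- Functions on the sheets, for all the parameters in `T'`; the functions `u t i + q i` have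
constant jumps `c t`. -/
structure Dat (𝓕 : Fam p E Γ) (T' : Set (Cm p)) (q : Fin 𝓕.N → ℂ → ℂ)
    (u : Cm p → Fin 𝓕.N → ℂ → ℂ) (c : Cm p → Γ → ℂ) : Prop where
  sub : T' ⊆ 𝓕.T
  isOpen : IsOpen T'
  hol : ∀ t ∈ T', ∀ i, DifferentiableOn ℂ (u t i) (ball 0 3)
  add : ∀ t ∈ T', ∀ a b, c t (a * b) = c t a + c t b
  ana : ∀ t ∈ T', ∀ i j, i ≠ j → ∀ z ∈ ball (0 : ℂ) 3, ∀ w ∈ ball (0 : ℂ) 3, ∀ γ : Γ,
    𝓕.σ i t z = γ • 𝓕.σ j t w → AnalyticAt ℂ (q i) z ∧ AnalyticAt ℂ (q j) w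
  rel : ∀ t ∈ T', ∀ i j, ∀ z ∈ ball (0 : ℂ) 3, ∀ w ∈ ball (0 : ℂ) 3, ∀ γ : Γ,
    𝓕.σ i t z = γ • 𝓕.σ j t w → u t i z + q i z = u t j w + q j w + c t γ

section
variable {𝓕 : Fam p E Γ} {T' : Set (Cm p)} {q : Fin 𝓕.N → ℂ → ℂ}
  {u : Cm p → Fin 𝓕.N → ℂ → ℂ} {c : Cm p → Γ → ℂ}

/-- The sequence for the continuity. -/
theorem Dat.seq (D : Dat 𝓕 T' q u c) {t₁ : Cm p} (ht₁ : t₁ ∈ T') :
    Seq 𝓕 (𝓝 t₁) id t₁ u c (fun i j _ z w => if i = j then 0 else q j w - q i z) where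
  lim := tendsto_id
  hol := by
    filter_upwards [D.isOpen.mem_nhds ht₁] with t ht using D.hol t ht
  add := by
    filter_upwards [D.isOpen.mem_nhds ht₁] with t ht using D.add t ht
  rel := by
    intro i j z hz w hw γ hγ U hU z' w' hz' hw' hr
    have h1 : ∀ᶠ t in (U : Filter (Cm p)), t ∈ T' := hU (D.isOpen.mem_nhds ht₁)
    have h2 : ∀ᶠ t in (U : Filter (Cm p)), z' t ∈ ball (0 : ℂ) 3 :=
      hz'.eventually (isOpen_ball.mem_nhds hz)
    have h3 : ∀ᶠ t in (U : Filter (Cm p)), w' t ∈ ball (0 : ℂ) 3 :=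
      hw'.eventually (isOpen_ball.mem_nhds hw)
    by_cases hij : i = j
    · subst hij
      simp only [if_true]
      refine tendsto_const_nhds.congr' ?_
      filter_upwards [h1, h2, h3, hr] with t k1 k2 k3 k4
      obtain ⟨k5, k6⟩ := 𝓕.inj i t (D.sub k1) _ k3 _ k2 γ k4.symm
      rw [k5, map_one_of_add (D.add t k1), k6, sub_self, sub_zero]
    · simp only [hij, if_false]
      obtain ⟨a1, a2⟩ := D.ana t₁ ht₁ i j hij z hz w hw γ hγ
      refine ((a2.continuousAt.tendsto.comp hw').sub (a1.continuousAt.tendsto.comp hz')).congr' ?_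
      filter_upwards [h1, h2, h3, hr] with t k1 k2 k3 k4
      have k5 := D.rel t k1 i j _ k2 _ k3 γ k4
      simp only [Function.comp_apply]
      linear_combination - k5

/-- The difference quotients. -/
theorem Dat.exists_seq (D : Dat 𝓕 T' q u c) {t₁ : Cm p} (ht₁ : t₁ ∈ T') (d : Cm p) :
    ∃ B : Fin 𝓕.N → Fin 𝓕.N → Γ → ℂ → ℂ → ℂ,
      Seq 𝓕 (𝓝[≠] (0 : ℂ)) (fun s => t₁ + s • d) t₁
        (fun s i z => s⁻¹ * (u (t₁ + s • d) i z - u t₁ i z))
        (fun s γ => s⁻¹ * (c (t₁ + s • d) γ - c t₁ γ)) B := by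
  have hlim0 : Tendsto (fun s : ℂ => t₁ + s • d) (𝓝 0) (𝓝 t₁) := by
    have : Continuous fun s : ℂ => t₁ + s • d := by fun_prop
    simpa using this.tendsto 0
  have hlim : Tendsto (fun s : ℂ => t₁ + s • d) (𝓝[≠] (0 : ℂ)) (𝓝 t₁) :=
    hlim0.mono_left nhdsWithin_le_nhds
  have hT : ∀ᶠ s : ℂ in 𝓝[≠] (0 : ℂ), t₁ + s • d ∈ T' :=
    hlim.eventually (D.isOpen.mem_nhds ht₁)
  have hex : ∀ (i j : Fin 𝓕.N) (γ : Γ) (z w : ℂ), ∃ β : ℂ, z ∈ ball (0 : ℂ) 3 →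
      w ∈ ball (0 : ℂ) 3 → 𝓕.σ i t₁ z = γ • 𝓕.σ j t₁ w →
      ∀ U : Ultrafilter ℂ, (U : Filter ℂ) ≤ 𝓝[≠] (0 : ℂ) →
      ∀ z' w' : ℂ → ℂ, Tendsto z' U (𝓝 z) → Tendsto w' U (𝓝 w) →
        (∀ᶠ s in (U : Filter ℂ),
          𝓕.σ i (t₁ + s • d) (z' s) = γ • 𝓕.σ j (t₁ + s • d) (w' s)) →
          Tendsto (fun s => s⁻¹ * (u (t₁ + s • d) i (z' s) - u t₁ i (z' s)) -
            s⁻¹ * (u (t₁ + s • d) j (w' s) - u t₁ j (w' s)) -
            s⁻¹ * (c (t₁ + s • d) γ - c t₁ γ)) U (𝓝 β) := by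
    intro i j γ z w
    by_cases hz : z ∈ ball (0 : ℂ) 3
    swap
    · exact ⟨0, fun h => absurd h hz⟩
    by_cases hw : w ∈ ball (0 : ℂ) 3
    swap
    · exact ⟨0, fun _ h => absurd h hw⟩
    by_cases hγ : 𝓕.σ i t₁ z = γ • 𝓕.σ j t₁ w
    swap
    · exact ⟨0, fun _ _ h => absurd h hγ⟩
    by_cases hij : i = j
    · subst hij
      refine ⟨0, fun _ _ _ U hU z' w' hz' hw' hr => ?_⟩
      have h2 : ∀ᶠ t in (U : Filter ℂ), z' t ∈ ball (0 : ℂ) 3 :=
        hz'.eventually (isOpen_ball.mem_nhds hz)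
      have h3 : ∀ᶠ t in (U : Filter ℂ), w' t ∈ ball (0 : ℂ) 3 :=
        hw'.eventually (isOpen_ball.mem_nhds hw)
      refine tendsto_const_nhds.congr' ?_
      filter_upwards [hU hT, h2, h3, hr] with s k1 k2 k3 k4
      obtain ⟨k5, k6⟩ := 𝓕.inj i _ (D.sub k1) _ k3 _ k2 γ k4.symm
      rw [k5, map_one_of_add (D.add _ k1), map_one_of_add (D.add t₁ ht₁), k6]
      ring
    · obtain ⟨θ, hθ, hθw, hθr⟩ := exists_trans 𝓕 (D.sub ht₁) hz hw hγ
      obtain ⟨-, hqa⟩ := D.ana t₁ ht₁ i j hij z hz w hw γ hγ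
      have hua : AnalyticAt ℂ (u t₁ j) w := (D.hol t₁ ht₁ j).analyticAt (isOpen_ball.mem_nhds hw)
      have hG : AnalyticAt ℂ (fun x : Cm p × ℂ => u t₁ j (θ x) + q j (θ x)) (t₁, z) := by
        have hqa' : AnalyticAt ℂ (q j) (θ (t₁, z)) := by rwa [hθw]
        have hua' : AnalyticAt ℂ (u t₁ j) (θ (t₁, z)) := by rwa [hθw]
        exact (hua'.comp hθ).add (hqa'.comp hθ)
      set G : Cm p × ℂ → ℂ := fun x => u t₁ j (θ x) + q j (θ x) with hGdef
      have hGs := hG.hasStrictFDerivAt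
      refine ⟨fderiv ℂ G (t₁, z) (d, 0), fun _ _ _ U hU z' w' hz' hw' hr => ?_⟩
      have hU0 : (U : Filter ℂ) ≤ 𝓝 0 := hU.trans nhdsWithin_le_nhds
      have hx : Tendsto (fun s : ℂ => (t₁ + s • d, z' s)) U (𝓝 (t₁, z)) :=
        (hlim0.mono_left hU0).prodMk_nhds hz'
      have hy : Tendsto (fun s : ℂ => (t₁, z' s)) U (𝓝 (t₁, z)) :=
        tendsto_const_nhds.prodMk_nhds hz'
      have hne : ∀ᶠ s : ℂ in (U : Filter ℂ), s ≠ 0 := hU self_mem_nhdsWithin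
      have h2 : ∀ᶠ t in (U : Filter ℂ), z' t ∈ ball (0 : ℂ) 3 :=
        hz'.eventually (isOpen_ball.mem_nhds hz)
      have h3 : ∀ᶠ t in (U : Filter ℂ), w' t ∈ ball (0 : ℂ) 3 :=
        hw'.eventually (isOpen_ball.mem_nhds hw)
      -- the strict derivative
      have key : Tendsto (fun s : ℂ => s⁻¹ * (G (t₁ + s • d, z' s) - G (t₁, z' s))) U
          (𝓝 (fderiv ℂ G (t₁, z) (d, 0))) := by
        have h4 : (fun s : ℂ => G (t₁ + s • d, z' s) - G (t₁, z' s) -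
            fderiv ℂ G (t₁, z) ((t₁ + s • d, z' s) - (t₁, z' s))) =o[(U : Filter ℂ)]
            fun s : ℂ => ((t₁ + s • d, z' s) - (t₁, z' s) : Cm p × ℂ) :=
          hGs.isLittleO.comp_tendsto (hx.prodMk_nhds hy)
        have h5 : ∀ s : ℂ, ((t₁ + s • d, z' s) - (t₁, z' s) : Cm p × ℂ) = s • (d, (0 : ℂ)) := by
          intro s
          ext <;> simp
        have h6 : (fun s : ℂ => ((t₁ + s • d, z' s) - (t₁, z' s) : Cm p × ℂ))
            =O[(U : Filter ℂ)] fun s : ℂ => s := by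
          refine Asymptotics.IsBigO.of_bound ‖(d, (0 : ℂ))‖ (Eventually.of_forall fun s => ?_)
          rw [h5, norm_smul, mul_comm]
        have h7 := (h4.trans_isBigO h6).tendsto_inv_smul_nhds_zero
        have h8 := h7.add_const (fderiv ℂ G (t₁, z) (d, 0))
        rw [zero_add] at h8
        refine h8.congr' ?_
        filter_upwards [hne] with s hs
        rw [h5, map_smul, smul_eq_mul, smul_eq_mul]
        field_simp
        ring
      refine key.congr' ?_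
      filter_upwards [hU hT, h2, h3, hr, hx.eventually hθr, hy.eventually hθr] with s k1 k2 k3 k4 k5
        k6
      have k7 := (k5.2.2.2.2 _ k3 γ k4).2
      have k8 := D.rel _ k1 i j _ k2 _ k3 γ k4
      have k9 := D.rel t₁ ht₁ i j _ k2 _ k6.2.2.1 γ k6.2.2.2.1
      simp only [hGdef]
      rw [← k7]
      linear_combination (s⁻¹) * k9 - (s⁻¹) * k8
  choose B hB using hex
  refine ⟨B, hlim, ?_, ?_, ?_⟩
  · filter_upwards [hT] with s hs i
    exact ((D.hol _ hs i).sub (D.hol t₁ ht₁ i)).const_mul _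
  · filter_upwards [hT] with s hs a b
    rw [D.add _ hs, D.add t₁ ht₁]
    ring
  · intro i j z hz w hw γ hγ U hU z' w' hz' hw' hr
    exact hB i j γ z w hz hw hγ U hU z' w' hz' hw' hr

end

end Vale.Agent.P281.H603
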