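import Vale.Agent.P281.H603.Conv

/-!
# P281, theorem T-D, block D (helper603): the periods, linear algebra
-/

open Set Filter Metric
open scoped Topology

namespace Vale.Agent.P281.H603

open Vale.Agent.P281.H64

/-- Some coordinates are coordinates of a subspace. -/
theorem exists_coords {n : ℕ} (W : Submodule ℂ (Fin n → ℂ)) :
    ∃ a : Fin (Module.finrank ℂ W) → Fin n, ∀ w ∈ W, (∀ j, w (a j) = 0) → w = 0 := by
  classical
  set v : Fin n → Module.Dual ℂ W := fun l => (LinearMap.proj l : (Fin n → ℂ) →ₗ[ℂ] ℂ).comp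
    W.subtype with hv
  obtain ⟨κ, b, hb, hspan, hli⟩ := exists_linearIndependent' (K := ℂ) v
  have : Finite κ := Finite.of_injective b hb
  have : Fintype κ := Fintype.ofFinite κ
  have key : ∀ w : W, (∀ k, (w : Fin n → ℂ) (b k) = 0) → w = 0 := by
    intro w hw
    have h1 : ∀ f ∈ Submodule.span ℂ (Set.range (v ∘ b)), f w = 0 := by
      intro f hf
      induction hf using Submodule.span_induction with
      | mem x hx =>
        obtain ⟨k, rfl⟩ := hx
        exact hw k
      | zero => rfl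
      | add x y _ _ hx hy => rw [LinearMap.add_apply, hx, hy, add_zero]
      | smul c x _ hx => rw [LinearMap.smul_apply, hx, smul_zero]
    ext l
    have h2 : v l ∈ Submodule.span ℂ (Set.range (v ∘ b)) := by
      rw [hspan]
      exact Submodule.subset_span ⟨l, rfl⟩
    exact h1 _ h2
  have hcard : Fintype.card κ = Module.finrank ℂ W := by
    apply le_antisymm
    · rw [← Subspace.dual_finrank_eq (K := ℂ) (V := W)]
      exact hli.fintype_card_le_finrank
    · have h1 : Function.Injective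
          (LinearMap.pi fun k => v (b k) : W →ₗ[ℂ] (κ → ℂ)) := by
        rw [injective_iff_map_eq_zero]
        intro w hw
        exact key w fun k => congrFun hw k
      have h2 := LinearMap.finrank_le_finrank_of_injective h1
      rwa [Module.finrank_fintype_fun_eq_card] at h2
  refine ⟨fun j => b ((Fintype.equivFinOfCardEq hcard).symm j), fun w hw h => ?_⟩
  have h1 := key ⟨w, hw⟩ fun k => by
    have := h (Fintype.equivFinOfCardEq hcard k)
    simpa using this
  simpa using congrArg Subtype.val h1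

section
variable {E Γ : Type} [TopologicalSpace E] [Group Γ] [MulAction Γ E]

theorem add_zero' (S : Sheets E Γ) : Add S (fun _ => 0) (fun _ => 0) :=
  ⟨fun _ => differentiableOn_const _, fun _ _ => by simp⟩

theorem add_add {S : Sheets E Γ} {h h' : E → ℂ} {c c' : Γ → ℂ} (H : Add S h c)
    (H' : Add S h' c') : Add S (fun e => h e + h' e) (fun γ => c γ + c' γ) :=
  ⟨fun i => (H.hol i).add (H'.hol i), fun γ e => by rw [H.add, H'.add]; ring⟩

theorem add_smul' {S : Sheets E Γ} {h : E → ℂ} {c : Γ → ℂ} (s : ℂ) (H : Add S h c) :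
    Add S (fun e => s * h e) (fun γ => s * c γ) :=
  ⟨fun i => (H.hol i).const_mul s, fun γ e => by rw [H.add]; ring⟩

theorem add_sub_const {S : Sheets E Γ} {h : E → ℂ} {c : Γ → ℂ} (s : ℂ) (H : Add S h c) :
    Add S (fun e => h e - s) c :=
  ⟨fun i => (H.hol i).sub_const s, fun γ e => by rw [H.add]; ring⟩

theorem add_sum {S : Sheets E Γ} {g : ℕ} {h : Fin g → E → ℂ} {c : Fin g → Γ → ℂ}
    (H : ∀ j, Add S (h j) (c j)) (s : Fin g → ℂ) :
    Add S (fun e => ∑ j, s j * h j e) (fun γ => ∑ j, s j * c j γ) := by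
  refine ⟨fun i => ?_, fun γ e => ?_⟩
  · exact DifferentiableOn.fun_sum fun j _ => ((H j).hol i).const_mul (s j)
  · rw [← Finset.sum_add_distrib]
    exact Finset.sum_congr rfl fun j _ => by rw [(H j).add]; ring

theorem add_hom [Nonempty E] {S : Sheets E Γ} {h : E → ℂ} {c : Γ → ℂ} (H : Add S h c) (a b : Γ) :
    c (a * b) = c a + c b := by
  obtain ⟨e⟩ := ‹Nonempty E›
  have h1 := H.add (a * b) e
  rw [mul_smul, H.add, H.add] at h1
  linear_combination - h1

/-- The periods of the additive functions. -/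
def perSub (S : Sheets E Γ) {n : ℕ} (M : Mark Γ n) : Submodule ℂ (Fin n → ℂ) where
  carrier := {x | ∃ h c, Add S h c ∧ ∀ l, x l = c (M.g l)}
  add_mem' := by
    rintro x y ⟨h, c, H, hx⟩ ⟨h', c', H', hy⟩
    exact ⟨_, _, add_add H H', fun l => by rw [Pi.add_apply, hx, hy]⟩
  zero_mem' := ⟨_, _, add_zero' S, fun _ => rfl⟩
  smul_mem' := by
    rintro s x ⟨h, c, H, hx⟩
    exact ⟨_, _, add_smul' s H, fun l => by rw [Pi.smul_apply, hx, smul_eq_mul]⟩

variable [T2Space E] [SimplyConnectedSpace E] [ContinuousConstSMul Γ E]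

/-- The dimension of the space of the periods. -/
theorem finrank_perSub (hC2 : C2Stmt) (S : Sheets E Γ) {n : ℕ} (M : Mark Γ n) :
    n = 2 * Module.finrank ℂ (perSub S M) := by
  have : Nonempty E := inferInstance
  set f : perSub S M →ₗ[ℝ] (Fin n → ℝ) :=
    { toFun := fun x l => ((x : Fin n → ℂ) l).re
      map_add' := fun x y => by ext l; simp
      map_smul' := fun s x => by ext l; simp } with hf
  have hinj : Function.Injective f := by
    rw [injective_iff_map_eq_zero]
    rintro ⟨x, h, c, H, hx⟩ hx0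
    have h1 : ∀ l, (c (M.g l)).re = 0 := fun l => by
      rw [← hx l]
      exact congrFun hx0 l
    have h2 : ∀ γ, (c γ).re = 0 := by
      intro γ
      rw [M.complete (fun γ => (c γ).re) (fun x y => by rw [add_hom H, Complex.add_re]) γ]
      exact Finset.sum_eq_zero fun l _ => by rw [h1, zero_mul]
    have h3 := (hC2 E Γ S).2 h c H h2
    have h4 : ∀ γ, c γ = 0 := by
      intro γ
      obtain ⟨e⟩ := this
      have h5 := H.add γ e
      rw [h3 (γ • e) e] at h5
      linear_combination - h5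
    ext l
    show x l = 0
    rw [hx, h4]
  have hsurj : Function.Surjective f := by
    intro y
    obtain ⟨h, c, H, hc⟩ := (hC2 E Γ S).1 (fun γ => ∑ k, y k * M.φ k γ) (fun a b => by
      rw [← Finset.sum_add_distrib]
      refine Finset.sum_congr rfl fun k _ => ?_
      rw [M.hom]
      push_cast
      ring)
    refine ⟨⟨fun l => c (M.g l), h, c, H, fun _ => rfl⟩, ?_⟩
    ext l
    show (c (M.g l)).re = y l
    rw [hc]
    simp [M.dual]
  have h1 := (LinearEquiv.ofBijective f ⟨hinj, hsurj⟩).finrank_eq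
  rw [Module.finrank_fintype_fun_eq_card, Fintype.card_fin, finrank_real_of_complex] at h1
  exact h1.symm

/-- At a good parameter, the dual basis. -/
theorem exists_dual (hC2 : C2Stmt) (S : Sheets E Γ) {n g : ℕ} (hn : n = 2 * g) (M : Mark Γ n)
    (a : Fin g → Fin n) (hG : Good S M (range a)) (i₀ : Fin S.N) :
    ∃ (F : E → Fin g → ℂ) (c : Γ → Fin g → ℂ), (∀ j, Add S (fun e => F e j) (fun γ => c γ j)) ∧
      (∀ j l, c (M.g (a l)) j = if l = j then 1 else 0) ∧ ∀ j, F (S.σ i₀ 0) j = 0 := by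
  have hg : Module.finrank ℂ (perSub S M) = g := by
    have := finrank_perSub hC2 S M
    omega
  set f : perSub S M →ₗ[ℂ] (Fin g → ℂ) :=
    { toFun := fun x l => (x : Fin n → ℂ) (a l)
      map_add' := fun x y => by ext l; simp
      map_smul' := fun s x => by ext l; simp } with hf
  have hinj : Function.Injective f := by
    rw [injective_iff_map_eq_zero]
    rintro ⟨x, h, c, H, hx⟩ hx0
    have h1 : ∀ l ∈ range a, c (M.g l) = 0 := by
      rintro _ ⟨j, rfl⟩
      rw [← hx]
      exact congrFun hx0 j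
    have h2 := hG h c H h1
    ext l
    show x l = 0
    rw [hx, h2]
  have hsurj : Function.Surjective f := by
    rw [← LinearMap.injective_iff_surjective_of_finrank_eq_finrank]
    · exact hinj
    · rw [Module.finrank_fintype_fun_eq_card, Fintype.card_fin, hg]
  have h1 : ∀ j : Fin g, ∃ (h : E → ℂ) (c : Γ → ℂ), Add S h c ∧ ∀ l, c (M.g (a l)) =
      if l = j then 1 else 0 := by
    intro j
    obtain ⟨⟨x, h, c, H, hx⟩, hxf⟩ := hsurj (fun l => if l = j then 1 else 0)
    refine ⟨h, c, H, fun l => ?_⟩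
    rw [← hx]
    exact congrFun hxf l
  choose h c H hc using h1
  refine ⟨fun e j => h j e - h j (S.σ i₀ 0), fun γ j => c j γ, fun j => add_sub_const _ (H j),
    fun j l => hc j l, fun j => sub_self _⟩

omit [T2Space E] [SimplyConnectedSpace E] [ContinuousConstSMul Γ E] in
/-- The dual basis is a basis. -/
theorem isBas_of_dual {S : Sheets E Γ} {n g : ℕ} {M : Mark Γ n} {a : Fin g → Fin n}
    (hG : Good S M (range a)) {F : E → Fin g → ℂ} {c : Γ → Fin g → ℂ}
    (H : ∀ j, Add S (fun e => F e j) (fun γ => c γ j))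
    (hc : ∀ j l, c (M.g (a l)) j = if l = j then 1 else 0) : IsBas S F c where
  add := H
  indep s hs := by
    ext l
    have h1 := hs (M.g (a l))
    simpa [hc] using h1
  span h b Hb := by
    refine ⟨fun j => b (M.g (a j)), fun γ => ?_⟩
    have h1 := add_add Hb (add_smul' (-1) (add_sum H fun j => b (M.g (a j))))
    have h2 := hG _ _ h1 (by
      rintro _ ⟨l, rfl⟩
      simp [hc]) γ
    linear_combination h2

/-- Being a good parameter is an open condition. -/
theorem good_open {p : ℕ} (hC2 : C2Stmt) (𝓕 : Fam p E Γ) {n : ℕ} (M : Mark Γ n) (I : Set (Fin n))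
    {t₁ : Cm p} (ht₁ : t₁ ∈ 𝓕.T) (hG : Good (𝓕.at t₁ ht₁) M I) :
    ∀ᶠ t in 𝓝 t₁, ∃ ht : t ∈ 𝓕.T, Good (𝓕.at t ht) M I := by
  have hne : Nonempty E := inferInstance
  obtain ⟨i₀⟩ : Nonempty (Fin 𝓕.N) := by
    obtain ⟨e⟩ := hne
    obtain ⟨-, i, -⟩ := 𝓕.cover t₁ ht₁ e
    exact ⟨i⟩
  by_contra hcon
  have hT : ∀ᶠ t in 𝓝 t₁, t ∈ 𝓕.T := 𝓕.isOpen.mem_nhds ht₁
  set A : Set (Cm p) := {t | ∃ ht : t ∈ 𝓕.T, ¬ Good (𝓕.at t ht) M I} with hA
  have hfr : ∃ᶠ t in 𝓝 t₁, t ∈ A := by
    rw [Filter.Frequently]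
    intro h
    refine hcon ?_
    filter_upwards [hT, h] with t k1 k2
    refine ⟨k1, ?_⟩
    by_contra k3
    exact k2 ⟨k1, k3⟩
  set l : Filter (Cm p) := 𝓝 t₁ ⊓ 𝓟 A with hl
  have hlne : l.NeBot := frequently_mem_iff_neBot.1 hfr
  have hlA : ∀ᶠ t in l, t ∈ A := mem_inf_of_right (mem_principal_self A)
  have hex : ∀ t, ∃ (h : E → ℂ) (c : Γ → ℂ), t ∈ A →
      (∀ i, DifferentiableOn ℂ (fun z => h (𝓕.σ i t z)) (ball 0 3)) ∧
      (∀ γ e, h (γ • e) = h e + c γ) ∧ (∀ a b, c (a * b) = c a + c b) ∧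
      (∀ l ∈ I, c (M.g l) = 0) ∧ (∃ l, c (M.g l) = 1) ∧ h (𝓕.σ i₀ t 0) = 0 := by
    intro t
    by_cases ht : t ∈ A
    swap
    · exact ⟨fun _ => 0, fun _ => 0, fun h => absurd h ht⟩
    obtain ⟨htT, hng⟩ := ht
    unfold Good at hng
    push Not at hng
    obtain ⟨h, c, H, hI, γ, hγ⟩ := hng
    have h1 : ∃ l, c (M.g l) ≠ 0 := by
      by_contra h2
      push Not at h2
      refine hγ ?_
      rw [mark_complex M (add_hom H) γ]
      exact Finset.sum_eq_zero fun l _ => by rw [h2, zero_mul]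
    obtain ⟨l, hl⟩ := h1
    have H' := add_sub_const ((c (M.g l))⁻¹ * h (𝓕.σ i₀ t 0)) (add_smul' (c (M.g l))⁻¹ H)
    refine ⟨fun e => (c (M.g l))⁻¹ * h e - (c (M.g l))⁻¹ * h (𝓕.σ i₀ t 0),
      fun γ => (c (M.g l))⁻¹ * c γ,
      fun _ => ⟨H'.hol, H'.add, add_hom H', fun m hm => ?_, ⟨l, ?_⟩, ?_⟩⟩
    · beta_reduce
      rw [hI m hm, mul_zero]
    · exact inv_mul_cancel₀ hl
    · exact sub_self _
  choose h c hprop using hex
  have Hs : Seq 𝓕 l id t₁ (fun t i z => h t (𝓕.σ i t z)) c (fun _ _ _ _ _ => 0) := by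
    refine ⟨tendsto_id.mono_left inf_le_left, ?_, ?_, ?_⟩
    · filter_upwards [hlA] with t ht using (hprop t ht).1
    · filter_upwards [hlA] with t ht using (hprop t ht).2.2.1
    · intro i j z hz w hw γ hγ U hU z' w' hz' hw' hr
      refine tendsto_const_nhds.congr' ?_
      filter_upwards [hU hlA, hr] with t ht k1
      simp only [id] at k1
      rw [k1, (hprop t ht).2.1]
      ring
  obtain ⟨v, ε, hv, hvl, hε, hadd, hrel⟩ := conv hC2 𝓕 ht₁ Hs M hG i₀ (a₀ := 0)
    (tendsto_const_nhds.congr' (hlA.mono fun t ht => (hprop t ht).2.2.2.2.2.symm))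
    (a := fun _ => 0) (fun m hm => tendsto_const_nhds.congr'
      (hlA.mono fun t ht => ((hprop t ht).2.2.2.1 m hm).symm))
  have hrel' : ∀ i j, ∀ z ∈ ball (0 : ℂ) 2, ∀ w ∈ ball (0 : ℂ) 2, ∀ γ : Γ,
      𝓕.σ i t₁ z = γ • 𝓕.σ j t₁ w → v i z = v j w + ε γ := by
    intro i j z hz w hw γ h
    have := hrel i j z hz w hw γ h
    linear_combination this
  obtain ⟨h1, H1, -⟩ := glue (𝓕.at t₁ ht₁) (v := v) (ε := ε) hv hadd hrel'
  have hεI : ∀ m ∈ I, ε (M.g m) = 0 := fun m hm =>
    tendsto_nhds_unique (hε (M.g m)) (tendsto_const_nhds.congr'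
      (hlA.mono fun t ht => ((hprop t ht).2.2.2.1 m hm).symm))
  have h2 := hG h1 ε H1 hεI
  have h3 : ∀ᶠ t in l, ∀ m, ‖c t (M.g m)‖ < 1 := by
    rw [eventually_all]
    intro m
    have h4 := (hε (M.g m)).norm
    rw [h2, norm_zero] at h4
    exact h4.eventually (gt_mem_nhds one_pos)
  obtain ⟨t, h4, h5⟩ := (h3.and hlA).exists
  obtain ⟨m, hm⟩ := (hprop t h5).2.2.2.2.1
  have h6 := h4 m
  rw [hm, norm_one] at h6
  exact lt_irrefl _ h6

end

end Vale.Agent.P281.H603
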