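import Vale.Agent.P281.H603.Refine

/-!
# P281, theorem T-D (helper603): sheets which avoid a point
-/

open Set Filter Metric
open scoped Topology ContDiff

noncomputable section

namespace Vale.Agent.P281.H603

open Vale.Agent.P281.H64

section
variable {E Γ : Type} [TopologicalSpace E] [Group Γ] [MulAction Γ E] [ContinuousConstSMul Γ E]

/-- The orbit of a disc is open. -/
theorem isOpen_orbit (S : Sheets E Γ) (i : Fin S.N) :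
    IsOpen {e : E | ∃ (γ : Γ) (w : ℂ), ‖w‖ < 1 ∧ γ • S.σ i w = e} := by
  rw [isOpen_iff_ultrafilter]
  rintro x ⟨γ, w, hw, hx⟩ U hU
  have hw3 : w ∈ ball (0 : ℂ) 3 := by rw [mem_ball_zero_iff]; linarith
  have h1 : Tendsto (fun y : E => γ⁻¹ • y) U (𝓝 (S.σ i w)) := by
    have h2 : Tendsto (fun y : E => γ⁻¹ • y) (U : Filter E) (𝓝 (γ⁻¹ • x)) :=
      ((continuous_const_smul γ⁻¹).tendsto x).mono_left hU
    rwa [← hx, inv_smul_smul] at h2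
  obtain ⟨z', hz', hxz⟩ := exists_lift S i hw3 h1
  have h2 : ∀ᶠ y in (U : Filter E), ‖z' y‖ < 1 := hz'.norm.eventually (gt_mem_nhds hw)
  show ∀ᶠ y in (U : Filter E), ∃ (γ : Γ) (w : ℂ), ‖w‖ < 1 ∧ γ • S.σ i w = y
  filter_upwards [h2, hxz] with y k1 k2
  exact ⟨γ, z' y, k1, by rw [← k2, smul_inv_smul]⟩

omit [ContinuousConstSMul Γ E] in
theorem continuousAt_sheet (S : Sheets E Γ) (i : Fin S.N) {z : ℂ} (hz : z ∈ ball (0 : ℂ) 3) :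
    ContinuousAt (S.σ i) z := (S.map_nhds i z hz).le

/-- The points of the sheet `j` which are not in the orbit of a point. -/
theorem isOpen_avoid (S : Sheets E Γ) (i j : Fin S.N) :
    IsOpen {y : ℂ | y ∈ ball (0 : ℂ) 3 ∧ ∀ γ : Γ, γ • S.σ i 0 ≠ S.σ j y} := by
  rw [isOpen_iff_mem_nhds]
  rintro y ⟨hy, hne⟩
  have hC := isClosed_orbit S i (isCompact_singleton (x := (0 : ℂ))) (by
    intro z hz; rw [mem_singleton_iff.1 hz]; simp)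
  have h1 : S.σ j y ∈ {e : E | ∃ (γ : Γ) (z : ℂ), z ∈ ({0} : Set ℂ) ∧ γ • S.σ i z = e}ᶜ := by
    rintro ⟨γ, z, hz, he⟩
    rw [mem_singleton_iff.1 hz] at he
    exact hne γ he
  filter_upwards [isOpen_ball.mem_nhds hy,
    (continuousAt_sheet S j hy).eventually (hC.isOpen_compl.mem_nhds h1)] with z k1 k2
  exact ⟨k1, fun γ he => k2 ⟨γ, 0, rfl, he⟩⟩

/-- Discs which avoid a point and cover the complement of a disc centred at this point. -/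
theorem exists_discs (S : Sheets E Γ) (i₀ : Fin S.N) : ∃ (N' : ℕ) (δ : Fin N' → Disc S.N),
    (∀ a, ∀ z ∈ closedBall (0 : ℂ) 3, (δ a).A z ∈ ball (0 : ℂ) 3 ∧
      ∀ γ : Γ, γ • S.σ i₀ 0 ≠ S.σ (δ a).j ((δ a).A z)) ∧
    ∀ j, ∀ z ∈ closedBall (0 : ℂ) 1,
      (∃ (γ : Γ) (w : ℂ), ‖w‖ < 1 ∧ γ • S.σ i₀ w = S.σ j z) ∨
        ∃ a, (δ a).j = j ∧ ∃ w, ‖w‖ < 1 ∧ (δ a).A w = z := by
  classical
  set V : Fin S.N → Set ℂ := fun j => {y : ℂ | y ∈ ball (0 : ℂ) 3 ∧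
    ∀ γ : Γ, γ • S.σ i₀ 0 ≠ S.σ j y} with hV
  set O : Set E := {e : E | ∃ (γ : Γ) (w : ℂ), ‖w‖ < 1 ∧ γ • S.σ i₀ w = e} with hO
  set K : Fin S.N → Set ℂ := fun j => closedBall (0 : ℂ) 1 ∩ S.σ j ⁻¹' Oᶜ with hK
  have hVo : ∀ j, IsOpen (V j) := fun j => isOpen_avoid S i₀ j
  have hsub13 : closedBall (0 : ℂ) 1 ⊆ ball (0 : ℂ) 3 := closedBall_subset_ball (by norm_num)
  have hKc : ∀ j, IsCompact (K j) := by
    intro j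
    refine (isCompact_closedBall (0 : ℂ) 1).of_isClosed_subset ?_ inter_subset_left
    refine ContinuousOn.preimage_isClosed_of_isClosed (fun z hz => ?_) isClosed_closedBall
      (isOpen_orbit S i₀).isClosed_compl
    exact (continuousAt_sheet S j (hsub13 hz)).continuousWithinAt
  have hKV : ∀ j, K j ⊆ V j := by
    rintro j z ⟨hz1, hz2⟩
    refine ⟨hsub13 hz1, fun γ he => hz2 ⟨γ, 0, by simp, he⟩⟩
  have hr : ∀ (j : Fin S.N) (z : ℂ), ∃ r : ℝ, 0 < r ∧ (z ∈ V j → closedBall z (3 * r) ⊆ V j) := by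
    intro j z
    by_cases hz : z ∈ V j
    · obtain ⟨ε, hε, h1⟩ := Metric.isOpen_iff.1 (hVo j) z hz
      refine ⟨ε / 6, by positivity, fun _ => (closedBall_subset_ball ?_).trans h1⟩
      linarith
    · exact ⟨1, one_pos, fun h => absurd h hz⟩
  choose r hr0 hrV using hr
  have hsc : ∀ j, ∃ s : Finset ℂ, (∀ x ∈ s, x ∈ K j) ∧ K j ⊆ ⋃ x ∈ s, ball x (r j x) :=
    fun j => (hKc j).elim_nhds_subcover (fun x => ball x (r j x))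
      fun x _ => ball_mem_nhds x (hr0 j x)
  choose s hsK hsc using hsc
  have hmem : ∀ (j : Fin S.N) (x : ℂ), x ∈ s j → ∀ z ∈ closedBall (0 : ℂ) 3,
      x + (r j x : ℂ) * z ∈ V j := by
    intro j x hx z hz
    refine hrV j x (hKV j (hsK j x hx)) ?_
    rw [mem_closedBall, dist_eq_norm, add_sub_cancel_left, norm_mul, Complex.norm_real,
      Real.norm_of_nonneg (hr0 j x).le]
    rw [mem_closedBall_zero_iff] at hz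
    nlinarith [hr0 j x]
  set A := (Σ j : Fin S.N, {x // x ∈ s j}) with hA
  set δ₀ : A → Disc S.N := fun a =>
    { j := a.1
      c := a.2.1
      r := r a.1 a.2.1
      pos := hr0 _ _
      sub := fun z hz => (hmem a.1 a.2.1 a.2.2 z (ball_subset_closedBall hz)).1 } with hδ₀
  refine ⟨Fintype.card A, fun a => δ₀ ((Fintype.equivFin A).symm a), fun a z hz => ?_,
    fun j z hz => ?_⟩
  · obtain ⟨⟨j, x, hx⟩, rfl⟩ := (Fintype.equivFin A).surjective a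
    simp only [Equiv.symm_apply_apply]
    exact hmem j x hx z hz
  · by_cases h : S.σ j z ∈ O
    · exact Or.inl h
    · right
      obtain ⟨x, hx⟩ := mem_iUnion.1 (hsc j ⟨hz, h⟩)
      obtain ⟨hxs, hx⟩ := mem_iUnion.1 hx
      refine ⟨Fintype.equivFin A ⟨j, x, hxs⟩, by simp [hδ₀], ?_⟩
      simp only [Equiv.symm_apply_apply]
      refine ⟨(δ₀ ⟨j, x, hxs⟩).B z, ?_, Disc.A_B _ _⟩
      simp only [Disc.B, hδ₀, norm_mul, norm_inv, Complex.norm_real,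
        Real.norm_of_nonneg (hr0 j x).le]
      rw [mem_ball, dist_eq_norm] at hx
      rw [inv_mul_lt_iff₀ (hr0 j x), mul_one]
      exact hx

end

section
variable {p : ℕ} {E Γ : Type} [TopologicalSpace E] [Group Γ] [MulAction Γ E]
  [ContinuousConstSMul Γ E]

theorem eventually_avoid (𝓕 : Fam p E Γ) {t₀ : Cm p} (ht₀ : t₀ ∈ 𝓕.T) (i₀ : Fin 𝓕.N)
    (δ : Disc 𝓕.N) (h : ∀ z ∈ closedBall (0 : ℂ) 3, δ.A z ∈ ball (0 : ℂ) 3 ∧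
      ∀ γ : Γ, γ • 𝓕.σ i₀ t₀ 0 ≠ 𝓕.σ δ.j t₀ (δ.A z)) :
    ∀ᶠ t in 𝓝 t₀, ∀ z ∈ ball (0 : ℂ) 3, ∀ γ : Γ, γ • 𝓕.σ i₀ t 0 ≠ 𝓕.σ δ.j t (δ.A z) := by
  refine mem_iff_ultrafilter.2 fun U hU => ?_
  show ∀ᶠ t in (U : Filter (Cm p)), ∀ z ∈ ball (0 : ℂ) 3, ∀ γ : Γ,
    γ • 𝓕.σ i₀ t 0 ≠ 𝓕.σ δ.j t (δ.A z)
  by_contra hcon
  rw [← Ultrafilter.eventually_not] at hcon
  have hex : ∀ t : Cm p, ∃ (z : ℂ) (γ : Γ), (¬ ∀ z ∈ ball (0 : ℂ) 3, ∀ γ : Γ,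
      γ • 𝓕.σ i₀ t 0 ≠ 𝓕.σ δ.j t (δ.A z)) → (z ∈ ball (0 : ℂ) 3 ∧
        γ • 𝓕.σ i₀ t 0 = 𝓕.σ δ.j t (δ.A z)) := by
    intro t
    by_cases h1 : ∀ z ∈ ball (0 : ℂ) 3, ∀ γ : Γ, γ • 𝓕.σ i₀ t 0 ≠ 𝓕.σ δ.j t (δ.A z)
    · exact ⟨0, 1, fun h' => absurd h1 h'⟩
    · push Not at h1
      obtain ⟨z, hz, γ, hγ⟩ := h1
      exact ⟨z, γ, fun _ => ⟨hz, hγ⟩⟩
  choose z γ hzγ using hex
  have h1 : ∀ᶠ t in (U : Filter (Cm p)), ‖z t‖ ≤ 3 := by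
    filter_upwards [hcon] with t ht
    have := (hzγ t ht).1
    rw [mem_ball_zero_iff] at this
    exact this.le
  obtain ⟨z₀, hz₀3, hz₀⟩ := exists_lim_of_bound U h1
  obtain ⟨h2, h3⟩ := h z₀ (by simpa using hz₀3)
  have h4 : Tendsto (fun t => δ.A (z t)) U (𝓝 (δ.A z₀)) := (δ.continuous_A.tendsto z₀).comp hz₀
  obtain ⟨a, -, ha⟩ := fam_proper 𝓕 (l := (U : Filter (Cm p))) (t := id) (γ := γ) ht₀ hU h2
    (mem_ball_self (by norm_num : (0 : ℝ) < 3)) h4 tendsto_const_nhds (by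
      filter_upwards [hcon] with t ht using (hzγ t ht).2.symm)
  exact h3 a ha.symm

omit [ContinuousConstSMul Γ E] in
theorem eventually_cover (𝓕 : Fam p E Γ) {t₀ : Cm p} (ht₀ : t₀ ∈ 𝓕.T) (i₀ : Fin 𝓕.N)
    {N' : ℕ} (δ : Fin N' → Disc 𝓕.N)
    (h : ∀ j, ∀ z ∈ closedBall (0 : ℂ) 1,
      (∃ (γ : Γ) (w : ℂ), ‖w‖ < 1 ∧ γ • 𝓕.σ i₀ t₀ w = 𝓕.σ j t₀ z) ∨
        ∃ a, (δ a).j = j ∧ ∃ w, ‖w‖ < 1 ∧ (δ a).A w = z) :
    ∀ᶠ t in 𝓝 t₀, ∀ e : E, (∃ (γ : Γ) (w : ℂ), ‖w‖ < 1 ∧ γ • 𝓕.σ i₀ t w = e) ∨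
      ∃ (a : Fin N') (γ : Γ) (w : ℂ), ‖w‖ < 1 ∧ γ • 𝓕.σ (δ a).j t ((δ a).A w) = e := by
  refine mem_iff_ultrafilter.2 fun U hU => ?_
  show ∀ᶠ t in (U : Filter (Cm p)), ∀ e : E,
    (∃ (γ : Γ) (w : ℂ), ‖w‖ < 1 ∧ γ • 𝓕.σ i₀ t w = e) ∨
      ∃ (a : Fin N') (γ : Γ) (w : ℂ), ‖w‖ < 1 ∧ γ • 𝓕.σ (δ a).j t ((δ a).A w) = e
  by_contra hcon
  rw [← Ultrafilter.eventually_not] at hcon
  have hT : ∀ᶠ t in (U : Filter (Cm p)), t ∈ 𝓕.T := hU (𝓕.isOpen.mem_nhds ht₀)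
  have hex : ∀ t : Cm p, ∃ (e : E) (γ : Γ) (j : Fin 𝓕.N) (z : ℂ), t ∈ 𝓕.T →
      (¬ ∀ e : E, (∃ (γ : Γ) (w : ℂ), ‖w‖ < 1 ∧ γ • 𝓕.σ i₀ t w = e) ∨
        ∃ (a : Fin N') (γ : Γ) (w : ℂ), ‖w‖ < 1 ∧ γ • 𝓕.σ (δ a).j t ((δ a).A w) = e) →
      (‖z‖ < 1 ∧ γ • 𝓕.σ j t z = e ∧ (∀ (γ : Γ) (w : ℂ), ‖w‖ < 1 → γ • 𝓕.σ i₀ t w ≠ e) ∧
        ∀ (a : Fin N') (γ : Γ) (w : ℂ), ‖w‖ < 1 → γ • 𝓕.σ (δ a).j t ((δ a).A w) ≠ e) := by
    intro t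
    by_cases ht : t ∈ 𝓕.T
    swap
    · exact ⟨𝓕.σ i₀ t₀ 0, 1, i₀, 0, fun h' => absurd h' ht⟩
    by_cases h1 : ∀ e : E, (∃ (γ : Γ) (w : ℂ), ‖w‖ < 1 ∧ γ • 𝓕.σ i₀ t w = e) ∨
        ∃ (a : Fin N') (γ : Γ) (w : ℂ), ‖w‖ < 1 ∧ γ • 𝓕.σ (δ a).j t ((δ a).A w) = e
    · exact ⟨𝓕.σ i₀ t₀ 0, 1, i₀, 0, fun _ h' => absurd h1 h'⟩
    · push Not at h1
      obtain ⟨e, h2, h3⟩ := h1
      obtain ⟨γ, j, z, hz, he⟩ := 𝓕.cover t ht e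
      exact ⟨e, γ, j, z, fun _ _ => ⟨hz, he, h2, h3⟩⟩
  choose e γ j' z hprop using hex
  obtain ⟨j, hj⟩ := eventually_const_of_finite U j'
  have h1 : ∀ᶠ t in (U : Filter (Cm p)), ‖z t‖ ≤ 1 := by
    filter_upwards [hT, hcon] with t k1 k2 using (hprop t k1 k2).1.le
  obtain ⟨z₀, hz₀1, hz₀⟩ := exists_lim_of_bound U h1
  have hz₀3 : z₀ ∈ ball (0 : ℂ) 3 := by rw [mem_ball_zero_iff]; linarith
  rcases h j z₀ (by simpa using hz₀1) with ⟨γ₁, w, hw, he⟩ | ⟨a, haj, w, hw, he⟩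
  · have hw3 : w ∈ ball (0 : ℂ) 3 := by rw [mem_ball_zero_iff]; linarith
    obtain ⟨θ, k1, k2, k3⟩ := exists_trans 𝓕 ht₀ hz₀3 hw3 he.symm
    have h2 : Tendsto (fun t => (t, z t)) (U : Filter (Cm p)) (𝓝 (t₀, z₀)) :=
      Tendsto.prodMk_nhds (hU : Tendsto id (U : Filter (Cm p)) (𝓝 t₀)) hz₀
    have h3 : Tendsto (fun t => θ (t, z t)) U (𝓝 w) := by
      have := k1.continuousAt.tendsto.comp h2
      rwa [k2] at this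
    have h4 : ∀ᶠ t in (U : Filter (Cm p)), ‖θ (t, z t)‖ < 1 :=
      h3.norm.eventually (gt_mem_nhds hw)
    obtain ⟨t, k4, k5, k6, k7, k8⟩ :=
      (hT.and (hcon.and (hj.and (h4.and (h2.eventually k3))))).exists
    obtain ⟨-, k9, k10, -⟩ := hprop t k4 k5
    refine k10 (γ t * γ₁) (θ (t, z t)) k7 ?_
    rw [mul_smul, ← k8.2.2.2.1, ← k6]
    exact k9
  · have h2 : Tendsto (fun t => (δ a).B (z t)) (U : Filter (Cm p)) (𝓝 w) := by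
      have := ((δ a).continuous_B.tendsto z₀).comp hz₀
      rwa [← he, (δ a).B_A] at this
    have h4 : ∀ᶠ t in (U : Filter (Cm p)), ‖(δ a).B (z t)‖ < 1 :=
      h2.norm.eventually (gt_mem_nhds hw)
    obtain ⟨t, k4, k5, k6, k7⟩ := (hT.and (hcon.and (hj.and h4))).exists
    obtain ⟨-, k9, -, k10⟩ := hprop t k4 k5
    refine k10 a (γ t) _ k7 ?_
    rw [(δ a).A_B, haj, ← k6]
    exact k9

end

end Vale.Agent.P281.H603
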