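import Vale.Agent.P281.H603.Lin
import Vale.Agent.P281.H603.Dep2

/-!
# P281, theorem T-D (helper603): refinement of the sheets of a family
-/

open Set Filter Metric
open scoped Topology ContDiff

noncomputable section

namespace Vale.Agent.P281.H603

open Vale.Agent.P281.H64

/-- A small disc in a sheet. -/
structure Disc (N : ℕ) where
  j : Fin N
  c : ℂ
  r : ℝ
  pos : 0 < r
  sub : ∀ z ∈ ball (0 : ℂ) 3, c + r * z ∈ ball (0 : ℂ) 3

/-- The affine map. -/
def Disc.A {N : ℕ} (δ : Disc N) (z : ℂ) : ℂ := δ.c + δ.r * z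

/-- The inverse affine map. -/
def Disc.B {N : ℕ} (δ : Disc N) (z : ℂ) : ℂ := (δ.r : ℂ)⁻¹ * (z - δ.c)

theorem Disc.rne {N : ℕ} (δ : Disc N) : (δ.r : ℂ) ≠ 0 := Complex.ofReal_ne_zero.2 δ.pos.ne'

theorem Disc.A_B {N : ℕ} (δ : Disc N) (z : ℂ) : δ.A (δ.B z) = z := by
  have := δ.rne
  simp only [Disc.A, Disc.B]
  field_simp
  ring

theorem Disc.B_A {N : ℕ} (δ : Disc N) (z : ℂ) : δ.B (δ.A z) = z := by
  have := δ.rne
  simp only [Disc.A, Disc.B]
  field_simp
  ring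

theorem Disc.continuous_A {N : ℕ} (δ : Disc N) : Continuous δ.A := by
  unfold Disc.A; fun_prop

theorem Disc.continuous_B {N : ℕ} (δ : Disc N) : Continuous δ.B := by
  unfold Disc.B; fun_prop

theorem Disc.analyticAt_A {N : ℕ} (δ : Disc N) (z : ℂ) : AnalyticAt ℂ δ.A z := by
  unfold Disc.A; fun_prop

theorem Disc.analyticAt_B {N : ℕ} (δ : Disc N) (z : ℂ) : AnalyticAt ℂ δ.B z := by
  unfold Disc.B; fun_prop

/-- The affine homeomorphism. -/
def Disc.homeo {N : ℕ} (δ : Disc N) : ℂ ≃ₜ ℂ where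
  toFun := δ.A
  invFun := δ.B
  left_inv := δ.B_A
  right_inv := δ.A_B
  continuous_toFun := δ.continuous_A
  continuous_invFun := δ.continuous_B

theorem Disc.map_nhds {N : ℕ} (δ : Disc N) (z : ℂ) : Filter.map δ.A (𝓝 z) = 𝓝 (δ.A z) :=
  δ.homeo.map_nhds_eq z

theorem Disc.map_nhds_prod {N p : ℕ} (δ : Disc N) (t : Cm p) (z : ℂ) :
    Filter.map (fun q : Cm p × ℂ => (q.1, δ.A q.2)) (𝓝 (t, z)) = 𝓝 (t, δ.A z) :=
  ((Homeomorph.refl (Cm p)).prodCongr δ.homeo).map_nhds_eq (t, z)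

section
variable {E Γ : Type} [TopologicalSpace E] [Group Γ] [MulAction Γ E] [ContinuousConstSMul Γ E]

/-- The orbit of a compact subset of a sheet is closed. -/
theorem isClosed_orbit (S : Sheets E Γ) (i : Fin S.N) {K : Set ℂ} (hK : IsCompact K)
    (hK3 : K ⊆ ball (0 : ℂ) 3) : IsClosed {e : E | ∃ (γ : Γ) (z : ℂ), z ∈ K ∧ γ • S.σ i z = e} := by
  rw [isClosed_iff_ultrafilter]
  intro x U hU hs
  have h1 : ∀ e : E, ∃ (γ : Γ) (z : ℂ), e ∈ {e : E | ∃ (γ : Γ) (z : ℂ), z ∈ K ∧ γ • S.σ i z = e} →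
      (z ∈ K ∧ γ • S.σ i z = e) := by
    intro e
    by_cases h : ∃ (γ : Γ) (z : ℂ), z ∈ K ∧ γ • S.σ i z = e
    · obtain ⟨γ, z, hz⟩ := h
      exact ⟨γ, z, fun _ => hz⟩
    · exact ⟨1, 0, fun h' => absurd h' h⟩
  choose γ z hγz using h1
  have h2 : ∀ᶠ e in (U : Filter E), z e ∈ K ∧ γ e • S.σ i (z e) = e := by
    filter_upwards [hs] with e he using hγz e he
  have h3 : ((U.map z : Ultrafilter ℂ) : Filter ℂ) ≤ 𝓟 K := by
    rw [le_principal_iff]
    show z ⁻¹' K ∈ (U : Filter E)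
    filter_upwards [h2] with e he using he.1
  obtain ⟨z₀, hz₀K, hz₀⟩ := hK.ultrafilter_le_nhds _ h3
  have h4 : Tendsto z U (𝓝 z₀) := hz₀
  have h5 : Tendsto (fun e => S.σ i (z e)) U (𝓝 (S.σ i z₀)) := by
    have h6 : Tendsto (S.σ i) (𝓝 z₀) (𝓝 (S.σ i z₀)) := (S.map_nhds i z₀ (hK3 hz₀K)).le
    exact h6.comp h4
  have h6 : Tendsto (fun e => γ e • S.σ i (z e)) U (𝓝 x) := by
    refine Tendsto.congr' ?_ (hU : Tendsto id (U : Filter E) (𝓝 x))
    filter_upwards [h2] with e he using he.2.symm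
  obtain ⟨a, -, ha⟩ := proper S h5 h6
  exact ⟨a, z₀, hz₀K, ha.symm⟩

end

section
variable {p : ℕ} {E Γ : Type} [TopologicalSpace E] [Group Γ] [MulAction Γ E]
  [ContinuousConstSMul Γ E]

/-- The refined family. -/
def refineFam (𝓕 : Fam p E Γ) (T' : Set (Cm p)) (hT' : IsOpen T') (hsub : T' ⊆ 𝓕.T) {N' : ℕ}
    (δ : Fin N' → Disc 𝓕.N)
    (hcov : ∀ t ∈ T', ∀ e : E, ∃ (γ : Γ) (a : Fin N') (z : ℂ), ‖z‖ < 1 ∧
      γ • 𝓕.σ (δ a).j t ((δ a).A z) = e) : Fam p E Γ where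
  T := T'
  isOpen := hT'
  N := N'
  σ a t z := 𝓕.σ (δ a).j t ((δ a).A z)
  map_nhds a t ht z hz := by
    have h1 := 𝓕.map_nhds (δ a).j t (hsub ht) ((δ a).A z) ((δ a).sub z hz)
    rw [← (δ a).map_nhds_prod, Filter.map_map] at h1
    exact h1
  map_nhds' a t ht z hz := by
    have h1 := 𝓕.map_nhds' (δ a).j t (hsub ht) ((δ a).A z) ((δ a).sub z hz)
    rw [← (δ a).map_nhds, Filter.map_map] at h1
    exact h1
  inj a t ht z hz w hw γ h := by
    obtain ⟨h1, h2⟩ := 𝓕.inj (δ a).j t (hsub ht) _ ((δ a).sub z hz) _ ((δ a).sub w hw) γ h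
    have h3 : (δ a).A z = (δ a).A w := h2
    refine ⟨h1, ?_⟩
    rw [← (δ a).B_A z, h3, (δ a).B_A]
  cover := hcov
  closed a t ht r hr := by
    have h1 := isClosed_orbit (𝓕.at t (hsub ht)) (δ a).j (K := (δ a).A '' closedBall 0 r)
      ((isCompact_closedBall _ _).image (δ a).continuous_A) (by
        rintro _ ⟨z, hz, rfl⟩
        exact (δ a).sub z (closedBall_subset_ball hr hz))
    convert h1 using 1
    ext e
    constructor
    · rintro ⟨γ, z, hz, he⟩
      exact ⟨γ, _, ⟨z, by simpa using hz, rfl⟩, he⟩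
    · rintro ⟨γ, _, ⟨z, hz, rfl⟩, he⟩
      exact ⟨γ, z, by simpa using hz, he⟩
  hol a b t ht z hz w hw γ h := by
    obtain ⟨θ, h1, h2, h3⟩ := 𝓕.hol (δ a).j (δ b).j t (hsub ht) _ ((δ a).sub z hz) _
      ((δ b).sub w hw) γ h
    refine ⟨fun q => (δ b).B (θ (q.1, (δ a).A q.2)), ?_, ?_, ?_⟩
    · have h4 : AnalyticAt ℂ (fun q : Cm p × ℂ => (q.1, (δ a).A q.2)) (t, z) :=
        analyticAt_fst.prod (AnalyticAt.comp (g := (δ a).A) (f := fun q : Cm p × ℂ => q.2)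
          ((δ a).analyticAt_A _) analyticAt_snd)
      have h5 : AnalyticAt ℂ (fun q : Cm p × ℂ => θ (q.1, (δ a).A q.2)) (t, z) :=
        AnalyticAt.comp (g := θ) (f := fun q : Cm p × ℂ => (q.1, (δ a).A q.2)) h1 h4
      exact AnalyticAt.comp (g := (δ b).B) ((δ b).analyticAt_B _) h5
    · show (δ b).B (θ (t, (δ a).A z)) = w
      have h2' : θ (t, (δ a).A z) = (δ b).A w := h2
      rw [h2', (δ b).B_A]
    · have h4 : Tendsto (fun q : Cm p × ℂ => (q.1, (δ a).A q.2)) (𝓝 (t, z))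
          (𝓝 (t, (δ a).A z)) := ((δ a).map_nhds_prod t z).le
      filter_upwards [h4.eventually h3] with q hq
      rw [(δ b).A_B]
      exact hq
  smooth a b t ht s hs z hz w hw γ h := by
    obtain ⟨ψ, h1, h2, h3, h4⟩ := 𝓕.smooth (δ a).j (δ b).j t (hsub ht) s (hsub hs) _
      ((δ a).sub z hz) _ ((δ b).sub w hw) γ h
    refine ⟨fun u => (δ b).B (ψ ((δ a).A u)), ?_, ?_, ?_, ?_⟩
    · have hA : ContDiffAt ℝ ∞ (δ a).A z := ((δ a).analyticAt_A z).restrictScalars.contDiffAt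
      have hB : ContDiffAt ℝ ∞ (δ b).B (ψ ((δ a).A z)) :=
        ((δ b).analyticAt_B _).restrictScalars.contDiffAt
      have h5 : ContDiffAt ℝ ∞ (fun u => ψ ((δ a).A u)) z := ContDiffAt.comp z h1 hA
      exact ContDiffAt.comp (g := (δ b).B) z hB h5
    · show (δ b).B (ψ ((δ a).A z)) = w
      have h2' : ψ ((δ a).A z) = (δ b).A w := h2
      rw [h2', (δ b).B_A]
    · have h5 : HasFDerivAt ψ (fderiv ℝ ψ ((δ a).A z)) ((δ a).A z) :=
        (h1.differentiableAt (by norm_num)).hasFDerivAt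
      have h6 : HasFDerivAt (δ a).A ((δ a).r • ContinuousLinearMap.id ℝ ℂ) z := by
        have h7 : HasFDerivAt (fun z : ℂ => (δ a).c + (δ a).r • z)
            ((δ a).r • ContinuousLinearMap.id ℝ ℂ) z :=
          ((hasFDerivAt_id z).const_smul (δ a).r).const_add (δ a).c
        refine h7.congr_of_eventuallyEq (Eventually.of_forall fun u => ?_)
        simp [Disc.A]
      have h7 : HasFDerivAt (δ b).B ((δ b).r⁻¹ • ContinuousLinearMap.id ℝ ℂ) (ψ ((δ a).A z)) := by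
        have h8 : HasFDerivAt (fun z : ℂ => (δ b).r⁻¹ • (z - (δ b).c))
            ((δ b).r⁻¹ • ContinuousLinearMap.id ℝ ℂ) (ψ ((δ a).A z)) :=
          ((hasFDerivAt_id _).sub_const (δ b).c).const_smul (δ b).r⁻¹
        refine h8.congr_of_eventuallyEq (Eventually.of_forall fun u => ?_)
        simp [Disc.B]
      have h8 := h7.comp z (h5.comp z h6)
      have h9 : fderiv ℝ (fun u => (δ b).B (ψ ((δ a).A u))) z =
          ((δ b).r⁻¹ * (δ a).r) • fderiv ℝ ψ ((δ a).A z) := by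
        have h10 := h8.fderiv
        have h11 : (fun u => (δ b).B (ψ ((δ a).A u))) = (δ b).B ∘ ψ ∘ (δ a).A := rfl
        rw [h11, h10]
        refine ContinuousLinearMap.ext fun x => ?_
        simp only [ContinuousLinearMap.comp_apply, smul_apply,
          ContinuousLinearMap.id_apply, map_smul, smul_smul]
        rw [mul_comm]
      rw [h9]
      have h10 : (((δ b).r⁻¹ * (δ a).r) • fderiv ℝ ψ ((δ a).A z)).det =
          ((δ b).r⁻¹ * (δ a).r) ^ 2 * (fderiv ℝ ψ ((δ a).A z)).det := by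
        rw [ContinuousLinearMap.det, ContinuousLinearMap.det, ContinuousLinearMap.toLinearMap_smul,
          LinearMap.det_smul, Complex.finrank_real_complex]
      rw [h10]
      have h11 : 0 < (fderiv ℝ ψ ((δ a).A z)).det := h3
      have h12 := (δ a).pos
      have h13 := (δ b).pos
      positivity
    · have h5 : Tendsto (δ a).A (𝓝 z) (𝓝 ((δ a).A z)) := (δ a).continuous_A.tendsto z
      filter_upwards [h5.eventually h4] with u hu
      rw [(δ b).A_B]
      exact hu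

end

end Vale.Agent.P281.H603
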